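import Mathlib

/-!
P254U/RV/Bar: a barrier lemma.

Proof.  Suppose `K x1 > 0`, `c = K x1 / 2`.  As `K → 0` at `0+` there are points in `(0,x1)` with
`K ≤ c`; let `x0` be their supremum: `K x0 ≤ c` (continuity), `x0 < x1` and `K > c > 0` on `(x0,x1]`.
Choose `x0 < x2 < x1` with `K x2 ≤ c + K x1 / 8` (continuity at `x0`).  On `[x2,x1]` all right slopes
are `≤ δ` for every `δ > 0`, so `image_le_of_liminf_slope_right_lt_deriv_boundary'` with `f' = 0`
(or `f' = δ`) and `B x = K x2 + δ' (x - x2)` gives `K x1 ≤ K x2 + δ' (x1 - x2)` for all `δ' > 0`: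
contradiction.
-/

open Set Filter Topology

namespace Vale.Agent.P254U

theorem barrier {X : ℝ} {K : ℝ → ℝ} (hc : ContinuousOn K (Ioc 0 X))
    (h0 : Tendsto K (𝓝[>] 0) (𝓝 0))
    (hs : ∀ x ∈ Ioo (0 : ℝ) X, 0 < K x → ∀ δ : ℝ, 0 < δ →
      ∀ᶠ z in 𝓝[>] x, K z ≤ K x + δ * (z - x)) :
    ∀ x ∈ Ioc (0 : ℝ) X, K x ≤ 0 := by
  intro x1 hx1
  by_contra hpos
  push Not at hpos
  set c : ℝ := K x1 / 2 with hcdef
  have hc0 : 0 < c := by rw [hcdef]; linarith
  -- a point with small value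
  obtain ⟨s0, hs0K, hs0pos, hs0lt⟩ : ∃ s0, K s0 < c ∧ 0 < s0 ∧ s0 < x1 := by
    have h1 : ∀ᶠ x in 𝓝[>] (0 : ℝ), K x < c := h0.eventually (gt_mem_nhds hc0)
    have h2 : ∀ᶠ x in 𝓝[>] (0 : ℝ), x ∈ Ioo (0 : ℝ) x1 := Ioo_mem_nhdsGT hx1.1
    obtain ⟨s, h3, h4⟩ := (h1.and h2).exists
    exact ⟨s, h3, h4.1, h4.2⟩
  have hsub : Icc s0 x1 ⊆ Ioc 0 X := fun x hx =>
    ⟨lt_of_lt_of_le hs0pos hx.1, hx.2.trans hx1.2⟩
  have hcont : ContinuousOn K (Icc s0 x1) := hc.mono hsub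
  have hclosed : IsClosed (Icc s0 x1 ∩ K ⁻¹' Iic c) :=
    hcont.preimage_isClosed_of_isClosed isClosed_Icc isClosed_Iic
  have hcomp : IsCompact (Icc s0 x1 ∩ K ⁻¹' Iic c) :=
    isCompact_Icc.of_isClosed_subset hclosed inter_subset_left
  have hne : (Icc s0 x1 ∩ K ⁻¹' Iic c).Nonempty :=
    ⟨s0, ⟨le_rfl, hs0lt.le⟩, hs0K.le⟩
  have hmem := hcomp.sSup_mem hne
  set x0 := sSup (Icc s0 x1 ∩ K ⁻¹' Iic c) with hx0def
  have hx0K : K x0 ≤ c := hmem.2
  have hx0pos : 0 < x0 := lt_of_lt_of_le hs0pos hmem.1.1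
  have hlt : x0 < x1 := by
    rcases lt_or_eq_of_le hmem.1.2 with h | h
    · exact h
    · exfalso
      rw [h] at hx0K
      linarith
  have habove : ∀ x, x0 < x → x ≤ x1 → c < K x := by
    intro x h1 h2
    by_contra h3
    push Not at h3
    have h4 : x ∈ Icc s0 x1 ∩ K ⁻¹' Iic c := ⟨⟨hmem.1.1.trans h1.le, h2⟩, h3⟩
    exact absurd (le_csSup hcomp.bddAbove h4) (not_le.mpr h1)
  have hx0ge : c ≤ K x0 := by
    have hcw : ContinuousWithinAt K (Icc x0 x1) x0 :=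
      (hcont.mono (Icc_subset_Icc_left hmem.1.1)) x0 ⟨le_rfl, hlt.le⟩
    have h1 : Tendsto K (𝓝[>] x0) (𝓝 (K x0)) := by
      have h2 : Tendsto K (𝓝[Icc x0 x1] x0) (𝓝 (K x0)) := hcw
      refine h2.mono_left ?_
      rw [← nhdsWithin_Ioc_eq_nhdsGT hlt]
      exact nhdsWithin_mono _ Ioc_subset_Icc_self
    refine ge_of_tendsto h1 ?_
    filter_upwards [Ioc_mem_nhdsGT hlt] with x hx
    exact (habove x hx.1 hx.2).le
  have hposI : ∀ x ∈ Ico x0 x1, 0 < K x := by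
    intro x hx
    rcases eq_or_lt_of_le hx.1 with h | h
    · rw [← h]; exact lt_of_lt_of_le hc0 hx0ge
    · exact hc0.trans (habove x h hx.2.le)
  have key : ∀ δ : ℝ, 0 < δ → K x1 ≤ K x0 + δ * (x1 - x0) := by
    intro δ hδ
    have hcontI : ContinuousOn K (Icc x0 x1) := hcont.mono (Icc_subset_Icc_left hmem.1.1)
    refine image_le_of_liminf_slope_right_lt_deriv_boundary' (f := K) (f' := fun _ => 0)
      (a := x0) (b := x1) hcontI ?_ (B := fun x => K x0 + δ * (x - x0)) (B' := fun _ => δ)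
      ?_ ?_ ?_ ?_ ⟨hlt.le, le_rfl⟩
    · intro x hx r hr
      have hr' : (0 : ℝ) < r := hr
      have h1 := hs x ⟨lt_of_lt_of_le hx0pos hx.1, lt_of_lt_of_le hx.2 hx1.2⟩ (hposI x hx)
        (r / 2) (by linarith)
      refine Eventually.frequently ?_
      filter_upwards [h1, self_mem_nhdsWithin] with z hz hzx
      have hzx' : 0 < z - x := sub_pos.mpr hzx
      rw [slope_def_field, div_lt_iff₀ hzx']
      nlinarith
    · simp
    · fun_prop
    · intro x _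
      have h1 : HasDerivAt (fun x => K x0 + δ * (x - x0)) (δ * 1) x :=
        (((hasDerivAt_id x).sub_const x0).const_mul δ).const_add _
      rw [mul_one] at h1
      exact h1.hasDerivWithinAt
    · intro x _ _
      exact hδ
  have hd : 0 < x1 - x0 := sub_pos.mpr hlt
  have h1 := key (c / (2 * (x1 - x0))) (by positivity)
  have h2 : c / (2 * (x1 - x0)) * (x1 - x0) = c / 2 := by
    field_simp
  rw [h2] at h1
  linarith

end Vale.Agent.P254U
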