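import Vale.Agent.Lib.P254U.RV.Defs

/-!
P254U/RV/Bds: elementary facts on profiles.

Continuity: for `x ≤ y`, `r x ≤ r y ≤ r x * y / x`.  For `0 < s ≤ x`: `r x * s / x ≤ r s ≤ r x`, so
`s / r s ≤ x / r x` and `s^2 r(x)^2/x^2 ≤ r(s)^2 ≤ r(x)^2`; integrate.
`Fx_eq`: `Fx x = x * Ex x - ∫_0^x (s/r s)^(2N) s^(N+2)`, so `Fx' = Ex` on `(0,X)`.
All integrands are bounded on `(0,X]` and continuous there, hence interval integrable on `[0,x]`.
-/

open MeasureTheory Set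

namespace Vale.Agent.P254U

variable {N : ℕ} {X : ℝ} {r : ℝ → ℝ}

theorem Prof.cont (h : Prof X r) : ContinuousOn r (Ioc 0 X) := by
  intro x hx
  have hx0 : 0 < x := hx.1
  have hl : Filter.Tendsto (fun y : ℝ => min (r x) (r x * y / x)) (nhdsWithin x (Ioc 0 X))
      (nhds (r x)) := by
    have h1 : Continuous (fun y : ℝ => min (r x) (r x * y / x)) := by fun_prop
    have h2 := h1.continuousWithinAt (s := Ioc 0 X) (x := x)
    have h3 : min (r x) (r x * x / x) = r x := by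
      rw [mul_div_assoc, div_self hx0.ne', mul_one, min_self]
    unfold ContinuousWithinAt at h2
    simp only [h3] at h2
    exact h2
  have hu : Filter.Tendsto (fun y : ℝ => max (r x) (r x * y / x)) (nhdsWithin x (Ioc 0 X))
      (nhds (r x)) := by
    have h1 : Continuous (fun y : ℝ => max (r x) (r x * y / x)) := by fun_prop
    have h2 := h1.continuousWithinAt (s := Ioc 0 X) (x := x)
    have h3 : max (r x) (r x * x / x) = r x := by
      rw [mul_div_assoc, div_self hx0.ne', mul_one, max_self]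
    unfold ContinuousWithinAt at h2
    simp only [h3] at h2
    exact h2
  refine tendsto_of_tendsto_of_tendsto_of_le_of_le' hl hu ?_ ?_
  · filter_upwards [self_mem_nhdsWithin] with y hy
    rcases le_total x y with hxy | hxy
    · exact (min_le_left _ _).trans (h.mono x hx y hy hxy)
    · refine (min_le_right _ _).trans ?_
      rw [div_le_iff₀ hx0]
      exact h.anti y hy x hx hxy
  · filter_upwards [self_mem_nhdsWithin] with y hy
    rcases le_total x y with hxy | hxy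
    · refine le_trans ?_ (le_max_right _ _)
      rw [le_div_iff₀ hx0]
      exact h.anti x hx y hy hxy
    · exact (h.mono y hy x hx hxy).trans (le_max_left _ _)

private theorem Bds_q (h : Prof X r) {x s : ℝ} (hx : x ∈ Ioc (0 : ℝ) X) (hs : s ∈ Icc (0 : ℝ) x) :
    0 ≤ s / r s ∧ s / r s ≤ x / r x := by
  rcases hs.1.eq_or_lt with h0 | h0
  · rw [← h0, zero_div]
    exact ⟨le_refl 0, (div_pos hx.1 (h.pos x hx)).le⟩
  · have hs' : s ∈ Ioc (0 : ℝ) X := ⟨h0, hs.2.trans hx.2⟩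
    refine ⟨(div_pos h0 (h.pos s hs')).le, ?_⟩
    rw [div_le_div_iff₀ (h.pos s hs') (h.pos x hx)]
    have := h.anti s hs' x hx hs.2
    linarith

private theorem Bds_cont_q (h : Prof X r) : ContinuousOn (fun s => s / r s) (Ioc 0 X) :=
  continuousOn_id.div h.cont fun s hs => (h.pos s hs).ne'

private theorem Bds_cont_e (h : Prof X r) (N k : ℕ) :
    ContinuousOn (fun s => (s / r s) ^ (2 * N) * s ^ k) (Ioc 0 X) :=
  ((Bds_cont_q h).pow _).mul (continuousOn_id.pow _)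

private theorem Bds_cont_j (h : Prof X r) (N : ℕ) :
    ContinuousOn (fun s => r s ^ 2 * s ^ N) (Ioc 0 X) :=
  (h.cont.pow _).mul (continuousOn_id.pow _)

private theorem Bds_int (g : ℝ → ℝ) (hg : ContinuousOn g (Ioc 0 X)) (C : ℝ)
    (hC : ∀ s ∈ Ioc (0 : ℝ) X, |g s| ≤ C) : IntegrableOn g (Ioc 0 X) := by
  refine Integrable.of_bound (hg.aestronglyMeasurable measurableSet_Ioc) C ?_
  rw [ae_restrict_iff' measurableSet_Ioc]
  exact Filter.Eventually.of_forall hC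

private theorem Bds_int_e (h : Prof X r) (N k : ℕ) :
    IntegrableOn (fun s => (s / r s) ^ (2 * N) * s ^ k) (Ioc 0 X) := by
  refine Bds_int _ (Bds_cont_e h N k) ((X / r X) ^ (2 * N) * X ^ k) fun s hs => ?_
  have hX : X ∈ Ioc (0 : ℝ) X := ⟨h.X_pos, le_refl X⟩
  have hq := Bds_q h hX ⟨hs.1.le, hs.2⟩
  rw [abs_of_nonneg (mul_nonneg (pow_nonneg hq.1 _) (pow_nonneg hs.1.le _))]
  exact mul_le_mul (pow_le_pow_left₀ hq.1 hq.2 _) (pow_le_pow_left₀ hs.1.le hs.2 _)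
    (pow_nonneg hs.1.le _) (pow_nonneg (hq.1.trans hq.2) _)

private theorem Bds_int_j (h : Prof X r) (N : ℕ) :
    IntegrableOn (fun s => r s ^ 2 * s ^ N) (Ioc 0 X) := by
  refine Bds_int _ (Bds_cont_j h N) (r X ^ 2 * X ^ N) fun s hs => ?_
  have hX : X ∈ Ioc (0 : ℝ) X := ⟨h.X_pos, le_refl X⟩
  rw [abs_of_nonneg (mul_nonneg (sq_nonneg _) (pow_nonneg hs.1.le _))]
  exact mul_le_mul (pow_le_pow_left₀ (h.pos s hs).le (h.mono s hs X hX hs.2) _)
    (pow_le_pow_left₀ hs.1.le hs.2 _) (pow_nonneg hs.1.le _) (sq_nonneg _)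

private theorem Bds_ii {g : ℝ → ℝ} (hg : IntegrableOn g (Ioc 0 X)) {x : ℝ}
    (hx : x ∈ Icc (0 : ℝ) X) : IntervalIntegrable g volume 0 x := by
  rw [intervalIntegrable_iff_integrableOn_Ioc_of_le hx.1]
  exact hg.mono_set (Ioc_subset_Ioc_right hx.2)

private theorem Bds_prim_cont (h : Prof X r) {g : ℝ → ℝ} (hg : IntegrableOn g (Ioc 0 X)) :
    ContinuousOn (fun x => ∫ s in (0 : ℝ)..x, g s) (Icc 0 X) := by
  have h1 : IntegrableOn g (uIcc 0 X) := by
    rw [uIcc_of_le h.X_pos.le, integrableOn_Icc_iff_integrableOn_Ioc]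
    exact hg
  have h2 := intervalIntegral.continuousOn_primitive_interval h1
  rwa [uIcc_of_le h.X_pos.le] at h2

private theorem Bds_prim_deriv {g : ℝ → ℝ} (hg : IntegrableOn g (Ioc 0 X))
    (hc : ContinuousOn g (Ioc 0 X)) {x : ℝ} (hx : x ∈ Ioo (0 : ℝ) X) :
    HasDerivAt (fun u => ∫ s in (0 : ℝ)..u, g s) (g x) x := by
  have hc' : ContinuousOn g (Ioo 0 X) := hc.mono Ioo_subset_Ioc_self
  exact intervalIntegral.integral_hasDerivAt_right (Bds_ii hg ⟨hx.1.le, hx.2.le⟩)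
    (hc'.stronglyMeasurableAtFilter isOpen_Ioo x hx) (hc'.continuousAt (isOpen_Ioo.mem_nhds hx))

private theorem Bds_Fx_eq (h : Prof X r) (N : ℕ) {x : ℝ} (hx : x ∈ Icc (0 : ℝ) X) :
    Fx N r x = x * Ex N r x - ∫ s in (0 : ℝ)..x, (s / r s) ^ (2 * N) * s ^ (N + 2) := by
  unfold Fx Ex
  rw [← intervalIntegral.integral_const_mul, ← intervalIntegral.integral_sub
    ((Bds_ii (Bds_int_e h N (N + 1)) hx).const_mul x) (Bds_ii (Bds_int_e h N (N + 2)) hx)]
  refine intervalIntegral.integral_congr fun s _ => ?_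
  change (s / r s) ^ (2 * N) * (x * s ^ (N + 1) - s ^ (N + 2)) =
    x * ((s / r s) ^ (2 * N) * s ^ (N + 1)) - (s / r s) ^ (2 * N) * s ^ (N + 2)
  ring

theorem Ex_pos (h : Prof X r) {x : ℝ} (hx : x ∈ Ioc (0 : ℝ) X) : 0 < Ex N r x := by
  unfold Ex
  refine intervalIntegral.intervalIntegral_pos_of_pos_on
    (Bds_ii (Bds_int_e h N (N + 1)) ⟨hx.1.le, hx.2⟩) (fun s hs => ?_) hx.1
  have hs' : s ∈ Ioc (0 : ℝ) X := ⟨hs.1, hs.2.le.trans hx.2⟩
  exact mul_pos (pow_pos (div_pos hs.1 (h.pos s hs')) _) (pow_pos hs.1 _)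

theorem Jx_pos (h : Prof X r) {x : ℝ} (hx : x ∈ Ioc (0 : ℝ) X) : 0 < Jx N r x := by
  unfold Jx
  refine intervalIntegral.intervalIntegral_pos_of_pos_on
    (Bds_ii (Bds_int_j h N) ⟨hx.1.le, hx.2⟩) (fun s hs => ?_) hx.1
  have hs' : s ∈ Ioc (0 : ℝ) X := ⟨hs.1, hs.2.le.trans hx.2⟩
  exact mul_pos (pow_pos (h.pos s hs') _) (pow_pos hs.1 _)

theorem Fx_nonneg (h : Prof X r) {x : ℝ} (hx : x ∈ Ioc (0 : ℝ) X) : 0 ≤ Fx N r x := by
  unfold Fx
  refine intervalIntegral.integral_nonneg hx.1.le fun s hs => ?_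
  refine mul_nonneg (pow_nonneg (Bds_q h hx hs).1 _) ?_
  have e : x * s ^ (N + 1) - s ^ (N + 2) = s ^ (N + 1) * (x - s) := by ring
  rw [e]
  exact mul_nonneg (pow_nonneg hs.1 _) (sub_nonneg.2 hs.2)

private theorem Bds_cancel (h : Prof X r) (N : ℕ) {x : ℝ} (hx : x ∈ Ioc (0 : ℝ) X) :
    (x / r x) ^ (2 * N) * (r x / x) ^ (2 * N) = 1 := by
  rw [← mul_pow, div_mul_div_comm, mul_comm x (r x),
    div_self (mul_pos (h.pos x hx) hx.1).ne', one_pow]

/-- `ε ≤ 1` -/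
theorem Ex_le (h : Prof X r) {x : ℝ} (hx : x ∈ Ioc (0 : ℝ) X) :
    ((N : ℝ) + 2) * Ex N r x * (r x / x) ^ (2 * N) ≤ x ^ (N + 2) := by
  have h1 : Ex N r x ≤ (x / r x) ^ (2 * N) * (x ^ (N + 2) / ((N : ℝ) + 2)) := by
    unfold Ex
    have h2 : ∫ s in (0 : ℝ)..x, (x / r x) ^ (2 * N) * s ^ (N + 1) =
        (x / r x) ^ (2 * N) * (x ^ (N + 2) / ((N : ℝ) + 2)) := by
      rw [intervalIntegral.integral_const_mul, integral_pow]
      congr 1
      push_cast
      rw [zero_pow (by omega), sub_zero, show N + 1 + 1 = N + 2 by ring,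
        show (N : ℝ) + 1 + 1 = N + 2 by ring]
    rw [← h2]
    refine intervalIntegral.integral_mono_on hx.1.le
      (Bds_ii (Bds_int_e h N (N + 1)) ⟨hx.1.le, hx.2⟩)
      (Continuous.intervalIntegrable (by fun_prop) _ _) fun s hs => ?_
    have hq := Bds_q h hx hs
    exact mul_le_mul_of_nonneg_right (pow_le_pow_left₀ hq.1 hq.2 _) (pow_nonneg hs.1 _)
  have h3 : 0 ≤ (r x / x) ^ (2 * N) := pow_nonneg (div_pos (h.pos x hx) hx.1).le _
  have hN : (0 : ℝ) < (N : ℝ) + 2 := by positivity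
  calc ((N : ℝ) + 2) * Ex N r x * (r x / x) ^ (2 * N)
      ≤ ((N : ℝ) + 2) * ((x / r x) ^ (2 * N) * (x ^ (N + 2) / ((N : ℝ) + 2))) *
        (r x / x) ^ (2 * N) :=
        mul_le_mul_of_nonneg_right (mul_le_mul_of_nonneg_left h1 hN.le) h3
    _ = ((x / r x) ^ (2 * N) * (r x / x) ^ (2 * N)) * x ^ (N + 2) := by
        field_simp
    _ = x ^ (N + 2) := by rw [Bds_cancel h N hx, one_mul]

/-- `1 ≤ β` -/
theorem Jx_ge (h : Prof X r) {x : ℝ} (hx : x ∈ Ioc (0 : ℝ) X) :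
    r x ^ 2 * x ^ (N + 1) ≤ ((N : ℝ) + 3) * Jx N r x := by
  have hx0 : 0 < x := hx.1
  have h1 : (r x / x) ^ 2 * (x ^ (N + 3) / ((N : ℝ) + 3)) ≤ Jx N r x := by
    unfold Jx
    have h2 : ∫ s in (0 : ℝ)..x, (r x / x) ^ 2 * s ^ (N + 2) =
        (r x / x) ^ 2 * (x ^ (N + 3) / ((N : ℝ) + 3)) := by
      rw [intervalIntegral.integral_const_mul, integral_pow]
      congr 1
      push_cast
      rw [zero_pow (by omega), sub_zero, show N + 2 + 1 = N + 3 by ring,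
        show (N : ℝ) + 2 + 1 = N + 3 by ring]
    rw [← h2]
    refine intervalIntegral.integral_mono_on_of_le_Ioo hx.1.le
      (Continuous.intervalIntegrable (by fun_prop) _ _)
      (Bds_ii (Bds_int_j h N) ⟨hx.1.le, hx.2⟩) fun s hs => ?_
    have hs' : s ∈ Ioc (0 : ℝ) X := ⟨hs.1, hs.2.le.trans hx.2⟩
    have h3 : r x / x * s ≤ r s := by
      rw [div_mul_eq_mul_div, div_le_iff₀ hx0]
      exact h.anti s hs' x hx hs.2.le
    have h4 : 0 ≤ r x / x * s := mul_nonneg (div_pos (h.pos x hx) hx0).le hs.1.le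
    have h5 : (r x / x * s) ^ 2 ≤ r s ^ 2 := pow_le_pow_left₀ h4 h3 2
    calc (r x / x) ^ 2 * s ^ (N + 2) = (r x / x * s) ^ 2 * s ^ N := by ring
      _ ≤ r s ^ 2 * s ^ N := mul_le_mul_of_nonneg_right h5 (pow_nonneg hs.1.le _)
  have hN : (0 : ℝ) < (N : ℝ) + 3 := by positivity
  calc r x ^ 2 * x ^ (N + 1)
      = ((N : ℝ) + 3) * ((r x / x) ^ 2 * (x ^ (N + 3) / ((N : ℝ) + 3))) := by
        field_simp
        ring
    _ ≤ ((N : ℝ) + 3) * Jx N r x := mul_le_mul_of_nonneg_left h1 hN.le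

/-- `β ≤ (N+3)/(N+1)` -/
theorem Jx_le (h : Prof X r) {x : ℝ} (hx : x ∈ Ioc (0 : ℝ) X) :
    ((N : ℝ) + 1) * Jx N r x ≤ r x ^ 2 * x ^ (N + 1) := by
  have h1 : Jx N r x ≤ r x ^ 2 * (x ^ (N + 1) / ((N : ℝ) + 1)) := by
    unfold Jx
    have h2 : ∫ s in (0 : ℝ)..x, r x ^ 2 * s ^ N = r x ^ 2 * (x ^ (N + 1) / ((N : ℝ) + 1)) := by
      rw [intervalIntegral.integral_const_mul, integral_pow, zero_pow (by omega), sub_zero]
    rw [← h2]
    refine intervalIntegral.integral_mono_on_of_le_Ioo hx.1.le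
      (Bds_ii (Bds_int_j h N) ⟨hx.1.le, hx.2⟩)
      (Continuous.intervalIntegrable (by fun_prop) _ _) fun s hs => ?_
    have hs' : s ∈ Ioc (0 : ℝ) X := ⟨hs.1, hs.2.le.trans hx.2⟩
    exact mul_le_mul_of_nonneg_right
      (pow_le_pow_left₀ (h.pos s hs').le (h.mono s hs' x hx hs.2.le) 2) (pow_nonneg hs.1.le _)
  have hN : (0 : ℝ) < (N : ℝ) + 1 := by positivity
  calc ((N : ℝ) + 1) * Jx N r x
      ≤ ((N : ℝ) + 1) * (r x ^ 2 * (x ^ (N + 1) / ((N : ℝ) + 1))) :=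
        mul_le_mul_of_nonneg_left h1 hN.le
    _ = r x ^ 2 * x ^ (N + 1) := by field_simp

/-- `α ≤ 1` -/
theorem Fx_le (h : Prof X r) {x : ℝ} (hx : x ∈ Ioc (0 : ℝ) X) :
    ((N : ℝ) + 2) * ((N : ℝ) + 3) * Fx N r x * (r x / x) ^ (2 * N) ≤ x ^ (N + 3) := by
  have hN2 : (0 : ℝ) < (N : ℝ) + 2 := by positivity
  have hN3 : (0 : ℝ) < (N : ℝ) + 3 := by positivity
  have h1 : Fx N r x ≤
      (x / r x) ^ (2 * N) * (x ^ (N + 3) / (((N : ℝ) + 2) * ((N : ℝ) + 3))) := by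
    have hi1 : IntervalIntegrable (fun s : ℝ => x * s ^ (N + 1)) volume 0 x :=
      Continuous.intervalIntegrable (by fun_prop) _ _
    have hi2 : IntervalIntegrable (fun s : ℝ => s ^ (N + 2)) volume 0 x :=
      Continuous.intervalIntegrable (by fun_prop) _ _
    have h2 : ∫ s in (0 : ℝ)..x, (x / r x) ^ (2 * N) * (x * s ^ (N + 1) - s ^ (N + 2)) =
        (x / r x) ^ (2 * N) * (x ^ (N + 3) / (((N : ℝ) + 2) * ((N : ℝ) + 3))) := by
      rw [intervalIntegral.integral_const_mul, intervalIntegral.integral_sub hi1 hi2,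
        intervalIntegral.integral_const_mul, integral_pow, integral_pow]
      congr 1
      push_cast
      rw [zero_pow (by omega), sub_zero, zero_pow (by omega), sub_zero]
      rw [show (N : ℝ) + 1 + 1 = N + 2 by ring, show (N : ℝ) + 2 + 1 = N + 3 by ring]
      field_simp
      ring
    rw [← h2]
    unfold Fx
    have hc : Continuous (fun s : ℝ => (x / r x) ^ (2 * N) * (x * s ^ (N + 1) - s ^ (N + 2))) := by
      fun_prop
    have hF : IntervalIntegrable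
        (fun s : ℝ => (s / r s) ^ (2 * N) * (x * s ^ (N + 1) - s ^ (N + 2))) volume 0 x := by
      have h5 := ((Bds_ii (Bds_int_e h N (N + 1)) (x := x) ⟨hx.1.le, hx.2⟩).const_mul x).sub
        (Bds_ii (Bds_int_e h N (N + 2)) ⟨hx.1.le, hx.2⟩)
      refine h5.congr ?_
      refine fun s _ => ?_
      change x * ((s / r s) ^ (2 * N) * s ^ (N + 1)) - (s / r s) ^ (2 * N) * s ^ (N + 2) =
        (s / r s) ^ (2 * N) * (x * s ^ (N + 1) - s ^ (N + 2))
      ring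
    refine intervalIntegral.integral_mono_on hx.1.le hF (hc.intervalIntegrable _ _) fun s hs => ?_
    have hq := Bds_q h hx hs
    have e : x * s ^ (N + 1) - s ^ (N + 2) = s ^ (N + 1) * (x - s) := by ring
    rw [e]
    exact mul_le_mul_of_nonneg_right (pow_le_pow_left₀ hq.1 hq.2 _)
      (mul_nonneg (pow_nonneg hs.1 _) (sub_nonneg.2 hs.2))
  have h3 : 0 ≤ (r x / x) ^ (2 * N) := pow_nonneg (div_pos (h.pos x hx) hx.1).le _
  calc ((N : ℝ) + 2) * ((N : ℝ) + 3) * Fx N r x * (r x / x) ^ (2 * N)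
      ≤ ((N : ℝ) + 2) * ((N : ℝ) + 3) *
        ((x / r x) ^ (2 * N) * (x ^ (N + 3) / (((N : ℝ) + 2) * ((N : ℝ) + 3)))) *
        (r x / x) ^ (2 * N) :=
        mul_le_mul_of_nonneg_right (mul_le_mul_of_nonneg_left h1 (by positivity)) h3
    _ = ((x / r x) ^ (2 * N) * (r x / x) ^ (2 * N)) * x ^ (N + 3) := by
        field_simp
    _ = x ^ (N + 3) := by rw [Bds_cancel h N hx, one_mul]

theorem Ex_deriv (h : Prof X r) {x : ℝ} (hx : x ∈ Ioo (0 : ℝ) X) :
    HasDerivAt (Ex N r) ((x / r x) ^ (2 * N) * x ^ (N + 1)) x :=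
  Bds_prim_deriv (Bds_int_e h N (N + 1)) (Bds_cont_e h N (N + 1)) hx

theorem Jx_deriv (h : Prof X r) {x : ℝ} (hx : x ∈ Ioo (0 : ℝ) X) :
    HasDerivAt (Jx N r) (r x ^ 2 * x ^ N) x :=
  Bds_prim_deriv (Bds_int_j h N) (Bds_cont_j h N) hx

theorem Fx_deriv (h : Prof X r) {x : ℝ} (hx : x ∈ Ioo (0 : ℝ) X) :
    HasDerivAt (Fx N r) (Ex N r x) x := by
  have h1 := (hasDerivAt_id' x).mul (Ex_deriv (N := N) h hx)
  have h2 := Bds_prim_deriv (Bds_int_e h N (N + 2)) (Bds_cont_e h N (N + 2)) hx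
  have h3 := (h1.sub h2).congr_of_eventuallyEq (f₁ := Fx N r) (by
    filter_upwards [isOpen_Ioo.mem_nhds hx] with y hy
    exact Bds_Fx_eq h N ⟨hy.1.le, hy.2.le⟩)
  refine h3.congr_deriv ?_
  ring

theorem Ex_cont (h : Prof X r) : ContinuousOn (Ex N r) (Icc 0 X) :=
  Bds_prim_cont h (Bds_int_e h N (N + 1))

theorem Jx_cont (h : Prof X r) : ContinuousOn (Jx N r) (Icc 0 X) :=
  Bds_prim_cont h (Bds_int_j h N)

theorem Fx_cont (h : Prof X r) : ContinuousOn (Fx N r) (Icc 0 X) := by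
  have h1 : ContinuousOn (fun x => x * Ex N r x -
      ∫ s in (0 : ℝ)..x, (s / r s) ^ (2 * N) * s ^ (N + 2)) (Icc 0 X) :=
    (continuousOn_id.mul (Ex_cont h)).sub (Bds_prim_cont h (Bds_int_e h N (N + 2)))
  exact h1.congr fun x hx => Bds_Fx_eq h N hx

end Vale.Agent.P254U
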