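import Vale.Agent.Lib.P254U.RV.Defs

/-!
P254U/RV/BodyA: integration over a generalised body of revolution.

`K = {(t,y) : a ≤ t ≤ b, y ∈ ρ(t) L}` (first coordinate `t`, `Fin.cons t y`).  By Fubini
(`volume_preserving_piFinSuccAbove`, as in `plg_lintegral_succ` of P254U/PLG or P254U/Fub)
`∫_K f = ∫_a^b ∫_{y ∈ ρ(t) L} f (cons t y) dy dt`, and for `ρ(t) > 0` the substitution `y = ρ(t) z`
(`Measure.setIntegral_comp_smul` or similar) gives `ρ(t)^N ∫_L f (cons t (ρ(t) z)) dz`; for `ρ(t) = 0`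
both sides vanish since `N ≥ 1`.  `f` continuous, `K` compact.
-/

open MeasureTheory Set

namespace Vale.Agent.P254U

variable {N : ℕ}

/-- the hypotheses on `K` -/
structure Revol (K : Set (Fin (N + 1) → ℝ)) (L : Set (Fin N → ℝ)) (ρ : ℝ → ℝ) (a b : ℝ) :
    Prop where
  hN : 1 ≤ N
  bodyK : ConvBody (N + 1) K
  bodyL : ConvBody N L
  cenL : ∀ i, cen L i = 0
  hab : a < b
  cont : ContinuousOn ρ (Icc a b)
  conc : ConcaveOn ℝ (Icc a b) ρ
  nonneg : ∀ t ∈ Icc a b, 0 ≤ ρ t
  mem : ∀ (t : ℝ) (y : Fin N → ℝ), (Fin.cons t y : Fin (N + 1) → ℝ) ∈ K ↔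
    t ∈ Icc a b ∧ ∃ z ∈ L, y = ρ t • z

variable {K : Set (Fin (N + 1) → ℝ)} {L : Set (Fin N → ℝ)} {ρ : ℝ → ℝ} {a b : ℝ}

private theorem bodyA_symm_cons (n : ℕ) (z : ℝ × (Fin n → ℝ)) :
    (MeasurableEquiv.piFinSuccAbove (fun _ : Fin (n + 1) => ℝ) 0).symm z =
      (Fin.cons z.1 z.2 : Fin (n + 1) → ℝ) := by
  funext i
  refine Fin.cases ?_ (fun i => ?_) i
  · rfl
  · rfl

open scoped Pointwise in
private theorem bodyA_slice (h : Revol K L ρ a b) {t : ℝ} (ht : t ∈ Icc a b) :
    {y : Fin N → ℝ | (Fin.cons t y : Fin (N + 1) → ℝ) ∈ K} = (ρ t : ℝ) • L := by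
  ext y
  rw [mem_ofPred_eq, h.mem, Set.mem_smul_set]
  constructor
  · rintro ⟨_, z, hz, rfl⟩
    exact ⟨z, hz, rfl⟩
  · rintro ⟨z, hz, rfl⟩
    exact ⟨ht, z, hz, rfl⟩

private theorem bodyA_slice_empty (h : Revol K L ρ a b) {t : ℝ} (ht : t ∉ Icc a b) :
    {y : Fin N → ℝ | (Fin.cons t y : Fin (N + 1) → ℝ) ∈ K} = ∅ := by
  ext y
  rw [mem_ofPred_eq, h.mem]
  simp only [mem_empty_iff_false, iff_false]
  exact fun h' => ht h'.1

private theorem bodyA_cons_cont (t : ℝ) :
    Continuous (fun y : Fin N → ℝ => (Fin.cons t y : Fin (N + 1) → ℝ)) := by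
  refine continuous_pi fun i => ?_
  refine Fin.cases ?_ (fun i => ?_) i
  · exact continuous_const
  · exact continuous_apply i

private theorem bodyA_inner (h : Revol K L ρ a b) (f : (Fin (N + 1) → ℝ) → ℝ) (t : ℝ) :
    ∫ y, K.indicator f (Fin.cons t y) =
      ∫ y in {y : Fin N → ℝ | (Fin.cons t y : Fin (N + 1) → ℝ) ∈ K}, f (Fin.cons t y) := by
  have hm : MeasurableSet {y : Fin N → ℝ | (Fin.cons t y : Fin (N + 1) → ℝ) ∈ K} :=
    (bodyA_cons_cont t).measurable h.bodyK.compact.measurableSet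
  rw [← integral_indicator hm]
  rfl

open scoped Pointwise in
private theorem bodyA_scale (h : Revol K L ρ a b) (f : (Fin (N + 1) → ℝ) → ℝ) {t : ℝ}
    (ht : t ∈ Icc a b) :
    ∫ y in (ρ t : ℝ) • L, f (Fin.cons t y) =
      ρ t ^ N * ∫ z in L, f (Fin.cons t (ρ t • z) : Fin (N + 1) → ℝ) := by
  rcases (h.nonneg t ht).eq_or_lt with h0 | h0
  · have hN : N ≠ 0 := by have := h.hN; omega
    have hv : (volume : Measure (Fin N → ℝ)) ((ρ t : ℝ) • L) = 0 := by
      rw [← h0, Measure.addHaar_smul, Module.finrank_fin_fun, zero_pow hN, abs_zero,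
        ENNReal.ofReal_zero, zero_mul]
    rw [setIntegral_measure_zero _ hv, ← h0, zero_pow hN, zero_mul]
  · have h1 := Measure.setIntegral_comp_smul_of_pos (volume : Measure (Fin N → ℝ))
      (fun y => f (Fin.cons t y)) L h0
    rw [h1, Module.finrank_fin_fun, smul_eq_mul, ← mul_assoc, mul_inv_cancel₀ (by positivity),
      one_mul]

theorem Revol.integral (h : Revol K L ρ a b) {f : (Fin (N + 1) → ℝ) → ℝ} (hf : Continuous f) :
    ∫ x in K, f x =
      ∫ t in a..b, ρ t ^ N * ∫ z in L, f (Fin.cons t (ρ t • z) : Fin (N + 1) → ℝ) := by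
  have hmp := (volume_preserving_piFinSuccAbove (n := N) (fun _ : Fin (N + 1) => ℝ) 0).symm
  have hφ : IntegrableOn f K := hf.continuousOn.integrableOn_compact h.bodyK.compact
  have hKm : MeasurableSet K := h.bodyK.compact.measurableSet
  have hint : Integrable (fun z : ℝ × (Fin N → ℝ) => K.indicator f (Fin.cons z.1 z.2))
      ((volume : Measure ℝ).prod (volume : Measure (Fin N → ℝ))) := by
    have h1 : Integrable (K.indicator f) := hφ.integrable_indicator hKm
    have h2 := hmp.integrable_comp_of_integrable h1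
    have h3 : (K.indicator f) ∘
        (MeasurableEquiv.piFinSuccAbove (fun _ : Fin (N + 1) => ℝ) 0).symm =
        fun z : ℝ × (Fin N → ℝ) => K.indicator f (Fin.cons z.1 z.2) := by
      funext z
      rw [Function.comp_apply, bodyA_symm_cons]
    rw [h3] at h2
    exact h2
  rw [← integral_indicator hKm]
  have h1 : ∫ x, K.indicator f x = ∫ z : ℝ × (Fin N → ℝ), K.indicator f (Fin.cons z.1 z.2)
      ∂((volume : Measure ℝ).prod (volume : Measure (Fin N → ℝ))) := by
    have h2 := hmp.integral_comp' (K.indicator f)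
    rw [← h2]
    simp only [bodyA_symm_cons]
    rfl
  rw [h1, integral_prod _ hint]
  simp only [bodyA_inner h]
  rw [intervalIntegral.integral_of_le h.hab.le, ← integral_Icc_eq_integral_Ioc]
  have h4 : ∫ t in Icc a b, ρ t ^ N * ∫ z in L, f (Fin.cons t (ρ t • z) : Fin (N + 1) → ℝ) =
      ∫ t in Icc a b, ∫ y in {y : Fin N → ℝ | (Fin.cons t y : Fin (N + 1) → ℝ) ∈ K},
        f (Fin.cons t y) := by
    refine setIntegral_congr_fun measurableSet_Icc fun t ht => ?_
    rw [bodyA_slice h ht, bodyA_scale h f ht]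
  rw [h4]
  symm
  apply setIntegral_eq_integral_of_forall_compl_eq_zero
  intro t ht
  rw [bodyA_slice_empty h ht]
  exact setIntegral_empty

private theorem bodyA_one {n : ℕ} (s : Set (Fin n → ℝ)) : ∫ _y in s, (1 : ℝ) = (volume s).toReal := by
  simp [Measure.real]

theorem Revol.vol (h : Revol K L ρ a b) :
    (volume K).toReal = (volume L).toReal * Mj N ρ a b 0 := by
  have h1 := h.integral (f := fun _ => (1 : ℝ)) continuous_const
  rw [bodyA_one, bodyA_one] at h1
  rw [h1, Mj, mul_comm, intervalIntegral.integral_mul_const]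
  simp

theorem Revol.exists_pos (h : Revol K L ρ a b) : ∃ t ∈ Icc a b, 0 < ρ t := by
  by_contra hcon
  have hz : ∀ t ∈ Icc a b, ρ t = 0 := by
    intro t ht
    refine le_antisymm ?_ (h.nonneg t ht)
    by_contra h'
    exact hcon ⟨t, ht, not_le.1 h'⟩
  have hN : N ≠ 0 := by have := h.hN; omega
  have h1 : Mj N ρ a b 0 = 0 := by
    unfold Mj
    have h2 : ∫ t in a..b, t ^ 0 * ρ t ^ N = ∫ _t in a..b, (0 : ℝ) := by
      refine intervalIntegral.integral_congr fun t ht => ?_
      rw [uIcc_of_le h.hab.le] at ht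
      rw [hz t ht, zero_pow hN, mul_zero]
    rw [h2, intervalIntegral.integral_zero]
  have h3 := h.vol
  rw [h1, mul_zero] at h3
  have h4 : 0 < volume K := Measure.measure_pos_of_nonempty_interior _ h.bodyK.interior_nonempty
  have h5 : volume K ≠ ⊤ := h.bodyK.compact.measure_ne_top
  have h6 := ENNReal.toReal_pos h4.ne' h5
  linarith

end Vale.Agent.P254U
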