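import Vale.Agent.Lib.P254U.RV.BodyA

/-!
P254U/RV/BodyB: covariance of a generalised body of revolution.

`Revol.integral` and `cenL` (`∫_L z_i = 0`): `cen K 0 = A_1/A_0`, `cen K i.succ = 0`,
`covM K 0 0 = (A_2 A_0 - A_1^2)/A_0^2`, `covM K 0 j.succ = 0`,
`covM K i.succ j.succ = (D/A_0) covM L i j`, where `A_j = Mj N ρ a b j`, `D = ∫ ρ^(N+2)`.
`det_revol`: `Matrix.det_succ_row_zero` (first row has one nonzero entry) or
`Matrix.det_fromBlocks_zero₁₂`; `det (e • C) = e^N det C`.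
`rat_revol`: `SM = (n+1)(n+2) covM`, `Rat K = (N+2) ((N+2)(N+3))^(N+1) det covM K / ((N+1)! |K|)^2`,
`Rat L = (N+1) ((N+1)(N+2))^N det covM L / (N! |L|)^2`.
-/

open MeasureTheory Set

namespace Vale.Agent.P254U

variable {N : ℕ} {K : Set (Fin (N + 1) → ℝ)} {L : Set (Fin N → ℝ)} {ρ : ℝ → ℝ} {a b : ℝ}

private theorem bodyB_VL (h : Revol K L ρ a b) : 0 < (volume L).toReal :=
  convBody_vol_pos h.bodyL

private theorem bodyB_A0 (h : Revol K L ρ a b) : 0 < Mj N ρ a b 0 := by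
  have h1 : 0 < (volume K).toReal := convBody_vol_pos h.bodyK
  rw [h.vol] at h1
  exact (pos_iff_pos_of_mul_pos h1).1 (bodyB_VL h)

private theorem bodyB_ii (h : Revol K L ρ a b) (j : ℕ) :
    IntervalIntegrable (fun t => t ^ j * ρ t ^ N) volume a b := by
  apply ContinuousOn.intervalIntegrable
  rw [uIcc_of_le h.hab.le]
  exact (continuous_pow j).continuousOn.mul (h.cont.pow N)

private theorem bodyB_zL (h : Revol K L ρ a b) (i : Fin N) : ∫ z in L, z i = 0 := by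
  have h1 := h.cenL i
  unfold cen at h1
  rcases div_eq_zero_iff.1 h1 with h2 | h2
  · exact h2
  · exact absurd h2 (bodyB_VL h).ne'

private theorem bodyB_const (h : Revol K L ρ a b) (c : ℝ) :
    ∫ _z in L, c = (volume L).toReal * c := by
  rw [setIntegral_const, smul_eq_mul]
  rfl

private theorem bodyB_cen0 (h : Revol K L ρ a b) :
    cen K 0 = Mj N ρ a b 1 / Mj N ρ a b 0 := by
  unfold cen
  rw [h.integral (continuous_apply 0), h.vol]
  have h1 : ∀ t, ρ t ^ N * ∫ z in L, (Fin.cons t (ρ t • z) : Fin (N + 1) → ℝ) 0 =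
      (volume L).toReal * (t ^ 1 * ρ t ^ N) := by
    intro t
    simp only [Fin.cons_zero]
    rw [bodyB_const h]
    ring
  simp_rw [h1]
  rw [intervalIntegral.integral_const_mul]
  exact mul_div_mul_left _ _ (bodyB_VL h).ne'

private theorem bodyB_cens (h : Revol K L ρ a b) (j : Fin N) : cen K j.succ = 0 := by
  unfold cen
  rw [h.integral (continuous_apply j.succ)]
  have h1 : ∀ t, ρ t ^ N * ∫ z in L, (Fin.cons t (ρ t • z) : Fin (N + 1) → ℝ) j.succ = 0 := by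
    intro t
    simp only [Fin.cons_succ, Pi.smul_apply, smul_eq_mul]
    rw [integral_const_mul, bodyB_zL h]
    ring
  simp_rw [h1]
  simp

theorem Revol.cov00 (h : Revol K L ρ a b) :
    covM K 0 0 = (Mj N ρ a b 2 * Mj N ρ a b 0 - Mj N ρ a b 1 ^ 2) / Mj N ρ a b 0 ^ 2 := by
  have hV := (bodyB_VL h).ne'
  have hA := (bodyB_A0 h).ne'
  unfold covM
  rw [h.integral (by fun_prop), h.vol]
  set c := cen K 0 with hc
  have h1 : ∀ t, ρ t ^ N * ∫ z in L, ((Fin.cons t (ρ t • z) : Fin (N + 1) → ℝ) 0 - c) *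
      ((Fin.cons t (ρ t • z) : Fin (N + 1) → ℝ) 0 - c) =
      (volume L).toReal * (t ^ 2 * ρ t ^ N - 2 * c * (t ^ 1 * ρ t ^ N) +
        c ^ 2 * (t ^ 0 * ρ t ^ N)) := by
    intro t
    simp only [Fin.cons_zero]
    rw [bodyB_const h]
    ring
  simp_rw [h1]
  rw [intervalIntegral.integral_const_mul, intervalIntegral.integral_add
    ((bodyB_ii h 2).sub ((bodyB_ii h 1).const_mul _)) ((bodyB_ii h 0).const_mul _),
    intervalIntegral.integral_sub (bodyB_ii h 2) ((bodyB_ii h 1).const_mul _),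
    intervalIntegral.integral_const_mul, intervalIntegral.integral_const_mul]
  change (volume L).toReal * (Mj N ρ a b 2 - 2 * c * Mj N ρ a b 1 + c ^ 2 * Mj N ρ a b 0) /
    ((volume L).toReal * Mj N ρ a b 0) = _
  rw [hc, bodyB_cen0 h]
  field_simp
  ring

theorem Revol.cov0s (h : Revol K L ρ a b) (j : Fin N) :
    covM K 0 j.succ = 0 ∧ covM K j.succ 0 = 0 := by
  have h0 : covM K 0 j.succ = 0 := by
    unfold covM
    rw [h.integral (by fun_prop), bodyB_cens h]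
    have h1 : ∀ t, ρ t ^ N * ∫ z in L, ((Fin.cons t (ρ t • z) : Fin (N + 1) → ℝ) 0 - cen K 0) *
        ((Fin.cons t (ρ t • z) : Fin (N + 1) → ℝ) j.succ - 0) = 0 := by
      intro t
      simp only [Fin.cons_zero, Fin.cons_succ, Pi.smul_apply, smul_eq_mul, sub_zero]
      rw [integral_const_mul, integral_const_mul, bodyB_zL h]
      ring
    simp_rw [h1]
    simp
  refine ⟨h0, ?_⟩
  rw [← h0]
  unfold covM
  simp_rw [mul_comm]

theorem Revol.covss (h : Revol K L ρ a b) (i j : Fin N) :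
    covM K i.succ j.succ = (∫ t in a..b, ρ t ^ (N + 2)) / Mj N ρ a b 0 * covM L i j := by
  have hV := (bodyB_VL h).ne'
  have hA := (bodyB_A0 h).ne'
  unfold covM
  rw [h.integral (by fun_prop), h.vol, bodyB_cens h, bodyB_cens h, h.cenL, h.cenL]
  have h1 : ∀ t, ρ t ^ N * ∫ z in L, ((Fin.cons t (ρ t • z) : Fin (N + 1) → ℝ) i.succ - 0) *
      ((Fin.cons t (ρ t • z) : Fin (N + 1) → ℝ) j.succ - 0) =
      ρ t ^ (N + 2) * ∫ z in L, (z i - 0) * (z j - 0) := by
    intro t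
    simp only [Fin.cons_succ, Pi.smul_apply, smul_eq_mul, sub_zero]
    have h2 : ∀ z : Fin N → ℝ, ρ t * z i * (ρ t * z j) = ρ t ^ 2 * (z i * z j) := by
      intro z
      ring
    simp_rw [h2]
    rw [integral_const_mul]
    ring
  simp_rw [h1]
  rw [intervalIntegral.integral_mul_const]
  field_simp

theorem Revol.det (h : Revol K L ρ a b) :
    (covM K).det = (Mj N ρ a b 2 * Mj N ρ a b 0 - Mj N ρ a b 1 ^ 2) / Mj N ρ a b 0 ^ 2 *
      (((∫ t in a..b, ρ t ^ (N + 2)) / Mj N ρ a b 0) ^ N * (covM L).det) := by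
  rw [Matrix.det_succ_row_zero, Fin.sum_univ_succ]
  have h1 : ∀ j : Fin N, (-1 : ℝ) ^ ((j.succ : Fin (N + 1)) : ℕ) * covM K 0 j.succ *
      ((covM K).submatrix Fin.succ (j.succ).succAbove).det = 0 := by
    intro j
    rw [(h.cov0s j).1]
    ring
  simp_rw [h1]
  rw [Finset.sum_const_zero, add_zero, h.cov00]
  have h2 : (covM K).submatrix Fin.succ (Fin.succAbove 0) =
      ((∫ t in a..b, ρ t ^ (N + 2)) / Mj N ρ a b 0) • covM L := by
    ext i j
    rw [Matrix.submatrix_apply, Fin.succAbove_zero, Matrix.smul_apply, smul_eq_mul]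
    exact h.covss i j
  rw [h2, Matrix.det_smul, Fintype.card_fin]
  simp

private theorem bodyB_SM {n : ℕ} (C : Set (Fin n → ℝ)) :
    (SM C).det = (((n : ℝ) + 1) * ((n : ℝ) + 2)) ^ n * (covM C).det := by
  have h1 : SM C = (((n : ℝ) + 1) * ((n : ℝ) + 2)) • covM C := by
    ext i j
    rw [Matrix.smul_apply, smul_eq_mul]
    rfl
  rw [h1, Matrix.det_smul, Fintype.card_fin]

theorem Revol.rat (h : Revol K L ρ a b) :
    Rat K * (((N : ℝ) + 1) ^ (N + 3) * Mj N ρ a b 0 ^ (N + 4)) =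
      Rat L * (((N : ℝ) + 2) ^ 2 * ((N : ℝ) + 3) ^ (N + 1) *
        ((Mj N ρ a b 2 * Mj N ρ a b 0 - Mj N ρ a b 1 ^ 2) *
          (∫ t in a..b, ρ t ^ (N + 2)) ^ N)) := by
  have hV := (bodyB_VL h).ne'
  have hA := (bodyB_A0 h).ne'
  have hf : (N.factorial : ℝ) ≠ 0 := by exact_mod_cast N.factorial_ne_zero
  have hN : (N : ℝ) + 1 ≠ 0 := by positivity
  unfold Rat
  rw [bodyB_SM, bodyB_SM, h.det, h.vol, Nat.factorial_succ]
  push_cast
  generalize (∫ t in a..b, ρ t ^ (N + 2)) = D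
  generalize Mj N ρ a b 2 * Mj N ρ a b 0 - Mj N ρ a b 1 ^ 2 = Q
  generalize (covM L).det = C at *
  generalize Mj N ρ a b 0 = A at *
  generalize (volume L).toReal = V at *
  generalize (N.factorial : ℝ) = F at *
  have e1 : (N : ℝ) + 1 + 1 = N + 2 := by ring
  have e2 : (N : ℝ) + 1 + 2 = N + 3 := by ring
  rw [e1, e2, div_pow]
  have e3 : ((N : ℝ) + 1) ^ (N + 3) = ((N : ℝ) + 1) ^ N * ((N : ℝ) + 1) ^ 3 := by rw [pow_add]
  have e4 : A ^ (N + 4) = A ^ N * A ^ 4 := by rw [pow_add]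
  have e5 : (((N : ℝ) + 2) * (N + 3)) ^ (N + 1) =
      ((N : ℝ) + 2) ^ N * (N + 2) * (((N : ℝ) + 3) ^ (N + 1)) := by
    rw [mul_pow, pow_succ ((N : ℝ) + 2) N]
  rw [e3, e4, e5, mul_pow ((N : ℝ) + 1) ((N : ℝ) + 2) N]
  have hAN : A ^ N ≠ 0 := pow_ne_zero _ hA
  field_simp

end Vale.Agent.P254U
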