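import Vale.Agent.Lib.P254U.FS.AffSIC
import Vale.Agent.Lib.P254U.FS.Join

/-!
P254U/RV: generalised bodies of revolution.

THEOREM.  `L ⊂ ℝ^N` a convex body with centroid `0`, `ρ ≥ 0` concave on `[a,b]`,
`K = {(t,y) : a ≤ t ≤ b, y ∈ ρ(t) L} ⊂ ℝ^(N+1)`.  Then `Rat K ≤ Rat L`, i.e.
`L_K / L_simplex` is at most the same ratio for `L` (equality for cones).

OVERVIEW.  With `A_j = ∫ t^j ρ^N`, `D = ∫ ρ^(N+2)`:
`Rat K = Rat L * (N+2)^2 (N+3)^(N+1) / (N+1)^(N+3) * (A_2 A_0 - A_1^2) D^N / A_0^(N+4)`   (Body)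
and the one-dimensional inequality `(A_2 A_0 - A_1^2) D^N ≤ (N+1)^(N+3)/((N+2)^2 (N+3)^(N+1)) A_0^(N+4)`
is proved as follows.
(Shake) replace `ρ` by its increasing rearrangement on `[0, b-a]`: `A_0`, `D` do not change and
`A_2 A_0 - A_1^2` does not decrease.
(Link) new variable `x = (∫_0^t ρ^N)^(1/(N+1))`; `r(x) = ρ(t(x))` is nondecreasing and `r(x)/x` is
nonincreasing (`Prof`); `t(x) = Tx N r x`, `ρ^N dt = (N+1) x^N dx`.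
(Poin) weighted Poincare inequality: `A_2 A_0 - A_1^2 ≤ (N+1)^3/(N+2) * X^(N+1) * Fx N r X`.
(PP), (HH) differential inequalities for profiles:
`(N+2) Ex (r/x)^(2N) + κ (N+3) Jx x / r^2 ≤ (1+κ) x^(N+2)`, `κ = N(N+1)/(3N+2)`, and
`(N+2) (N+3)^(N+1) Fx Jx^N ≤ x^((N+3)(N+1))`.
-/

open MeasureTheory Set

namespace Vale.Agent.P254U

/-- a profile: `r > 0` nondecreasing, `r(x)/x` nonincreasing on `(0, X]` -/
structure Prof (X : ℝ) (r : ℝ → ℝ) : Prop where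
  X_pos : 0 < X
  pos : ∀ x ∈ Ioc (0 : ℝ) X, 0 < r x
  mono : ∀ x ∈ Ioc (0 : ℝ) X, ∀ y ∈ Ioc (0 : ℝ) X, x ≤ y → r x ≤ r y
  anti : ∀ x ∈ Ioc (0 : ℝ) X, ∀ y ∈ Ioc (0 : ℝ) X, x ≤ y → r y * x ≤ r x * y

noncomputable def Ex (N : ℕ) (r : ℝ → ℝ) (x : ℝ) : ℝ :=
  ∫ s in (0 : ℝ)..x, (s / r s) ^ (2 * N) * s ^ (N + 1)

noncomputable def Jx (N : ℕ) (r : ℝ → ℝ) (x : ℝ) : ℝ :=
  ∫ s in (0 : ℝ)..x, r s ^ 2 * s ^ N

noncomputable def Fx (N : ℕ) (r : ℝ → ℝ) (x : ℝ) : ℝ :=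
  ∫ s in (0 : ℝ)..x, (s / r s) ^ (2 * N) * (x * s ^ (N + 1) - s ^ (N + 2))

noncomputable def Tx (N : ℕ) (r : ℝ → ℝ) (x : ℝ) : ℝ :=
  ∫ s in (0 : ℝ)..x, ((N : ℝ) + 1) * (s / r s) ^ N

/-- the moments of a profile function `ρ` on `[a,b]` -/
noncomputable def Mj (N : ℕ) (ρ : ℝ → ℝ) (a b : ℝ) (j : ℕ) : ℝ :=
  ∫ t in a..b, t ^ j * ρ t ^ N

end Vale.Agent.P254U
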