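import Mathlib

/-!
P254U/RV/NumS: a numerical inequality.  `m = N+1`, `κ = N(N+1)/(3N+2)`, `0 ≤ b ≤ 2/m`:
`(1 - κ b)(1 + b)^m ≤ 1 + m b`.

Proof.  `(1 + b)^m = ∑ C(m,k) b^k` (`add_pow`), so the left side is
`1 + (m - κ) b + ∑_{k ≥ 2} (C(m,k) - κ C(m,k-1)) b^k`.  For `k ≥ 3`,
`C(m,k) = C(m,k-1) (m-k+1)/k ≤ C(m,k-1) (m-2)/3 ≤ κ C(m,k-1)` (`(m-2)/3 ≤ κ`:
`(N-1)(3N+2) ≤ 3 N (N+1)`), so these terms are `≤ 0` and the left side is at most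
`1 + (m - κ) b + (m(m-1)/2 - κ m) b^2`; this is `≤ 1 + m b` because
`(m(m-1)/2 - κ m) b ≤ κ`: indeed `m(m-1)/2 - κ m = (N+1) N^2/(2(3N+2))` and `b ≤ 2/(N+1)`.
(The sum can be handled by writing `∑_{k<m+1} C(m,k) b^k - κ b ∑_{k<m} C(m,k) b^k - κ b^(m+1)`
and peeling the first three / two terms with `Finset.sum_range_succ'`; or by induction.)
-/

open Set

namespace Vale.Agent.P254U

theorem numS_term (n x : ℕ) (hx : x < n) {b κ : ℝ} (h0 : 0 ≤ b) (hκ : (n : ℝ) / 3 ≤ κ) :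
    ((n + 2).choose (3 + x) : ℝ) * b ^ (3 + x) ≤
      κ * b * (((n + 2).choose (2 + x) : ℝ) * b ^ (2 + x)) := by
  have h1 := Nat.choose_succ_right_eq (n + 2) (2 + x)
  have h2 : n + 2 - (2 + x) = n - x := by omega
  rw [h2] at h1
  have h3 : ((n + 2).choose (2 + x + 1) : ℝ) * ((2 + x + 1 : ℕ) : ℝ) =
      ((n + 2).choose (2 + x) : ℝ) * ((n : ℝ) - x) := by
    rw [← Nat.cast_sub hx.le, ← Nat.cast_mul, ← Nat.cast_mul, h1]
  have e1 : 3 + x = 2 + x + 1 := by omega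
  rw [e1, pow_succ]
  have hc : (0 : ℝ) ≤ ((n + 2).choose (2 + x) : ℝ) := Nat.cast_nonneg _
  have hx0 : (0 : ℝ) ≤ (x : ℝ) := Nat.cast_nonneg _
  have h4 : ((n + 2).choose (2 + x + 1) : ℝ) ≤ κ * ((n + 2).choose (2 + x) : ℝ) := by
    have h5 : (0 : ℝ) < ((2 + x + 1 : ℕ) : ℝ) := by positivity
    have h6 : ((n + 2).choose (2 + x + 1) : ℝ) * ((2 + x + 1 : ℕ) : ℝ) ≤
        κ * ((n + 2).choose (2 + x) : ℝ) * ((2 + x + 1 : ℕ) : ℝ) := by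
      rw [h3]
      have h7 : (n : ℝ) - x ≤ κ * ((2 + x + 1 : ℕ) : ℝ) := by
        push_cast
        have hn0 : (0 : ℝ) ≤ (n : ℝ) := Nat.cast_nonneg _
        have hk0 : 0 ≤ κ := by linarith [div_nonneg hn0 (by norm_num : (0 : ℝ) ≤ 3)]
        nlinarith [mul_nonneg hk0 hx0]
      calc ((n + 2).choose (2 + x) : ℝ) * ((n : ℝ) - x)
          ≤ ((n + 2).choose (2 + x) : ℝ) * (κ * ((2 + x + 1 : ℕ) : ℝ)) :=
            mul_le_mul_of_nonneg_left h7 hc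
        _ = κ * ((n + 2).choose (2 + x) : ℝ) * ((2 + x + 1 : ℕ) : ℝ) := by ring
    exact le_of_mul_le_mul_right h6 h5
  have h8 : (0 : ℝ) ≤ b ^ (2 + x) * b := by positivity
  calc ((n + 2).choose (2 + x + 1) : ℝ) * (b ^ (2 + x) * b)
      ≤ κ * ((n + 2).choose (2 + x) : ℝ) * (b ^ (2 + x) * b) :=
        mul_le_mul_of_nonneg_right h4 h8
    _ = κ * b * (((n + 2).choose (2 + x) : ℝ) * b ^ (2 + x)) := by ring

theorem numS_aux (n : ℕ) {b κ : ℝ} (h0 : 0 ≤ b) (hκ : (n : ℝ) / 3 ≤ κ) :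
    (1 - κ * b) * (1 + b) ^ (n + 2) ≤ 1 + ((n : ℝ) + 2) * b +
      ((n : ℝ) + 2) * ((n : ℝ) + 1) / 2 * b ^ 2 - κ * b - κ * ((n : ℝ) + 2) * b ^ 2 := by
  have hn0 : (0 : ℝ) ≤ (n : ℝ) := Nat.cast_nonneg _
  have hk0 : 0 ≤ κ := by linarith [div_nonneg hn0 (by norm_num : (0 : ℝ) ≤ 3)]
  obtain ⟨a, ha⟩ : ∃ a : ℕ → ℝ, a = fun k => ((n + 2).choose k : ℝ) * b ^ k := ⟨_, rfl⟩
  have ha0 : ∀ k, 0 ≤ a k := fun k => by rw [ha]; positivity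
  have h1 : (1 + b) ^ (n + 2) = ∑ k ∈ Finset.range (3 + n), a k := by
    rw [add_comm (1 : ℝ) b, add_pow, show n + 2 + 1 = 3 + n by omega, ha]
    refine Finset.sum_congr rfl fun k _ => ?_
    rw [one_pow, mul_one, mul_comm]
  have h2 : ∑ k ∈ Finset.range (3 + n), a k =
      (a 0 + a 1 + a 2) + ∑ x ∈ Finset.range n, a (3 + x) := by
    rw [Finset.sum_range_add, Finset.sum_range_succ, Finset.sum_range_succ,
      Finset.sum_range_succ, Finset.sum_range_zero, zero_add]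
  have h3 : ∑ k ∈ Finset.range (2 + n), a k =
      (a 0 + a 1) + ∑ x ∈ Finset.range n, a (2 + x) := by
    rw [Finset.sum_range_add, Finset.sum_range_succ, Finset.sum_range_succ,
      Finset.sum_range_zero, zero_add]
  have h4 : ∑ k ∈ Finset.range (2 + n), a k ≤ ∑ k ∈ Finset.range (3 + n), a k :=
    Finset.sum_le_sum_of_subset_of_nonneg
      (Finset.range_subset_range.2 (by omega)) fun k _ _ => ha0 k
  have h5 : ∑ x ∈ Finset.range n, a (3 + x) ≤ κ * b * ∑ x ∈ Finset.range n, a (2 + x) := by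
    rw [Finset.mul_sum]
    refine Finset.sum_le_sum fun x hx => ?_
    rw [ha]
    exact numS_term n x (Finset.mem_range.1 hx) h0 hκ
  have h6 : κ * b * ∑ k ∈ Finset.range (2 + n), a k ≤
      κ * b * ∑ k ∈ Finset.range (3 + n), a k :=
    mul_le_mul_of_nonneg_left h4 (mul_nonneg hk0 h0)
  have ea0 : a 0 = 1 := by rw [ha]; simp
  have ea1 : a 1 = ((n : ℝ) + 2) * b := by rw [ha]; simp
  have ea2 : a 2 = ((n : ℝ) + 2) * ((n : ℝ) + 1) / 2 * b ^ 2 := by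
    rw [ha]
    show ((n + 2).choose 2 : ℝ) * b ^ 2 = _
    rw [Nat.cast_choose_two]
    push_cast
    ring
  rw [h1]
  rw [h3] at h6
  rw [ea0, ea1] at h6
  have h7 := h2
  rw [ea0, ea1, ea2] at h7
  have h8 : (1 - κ * b) * ∑ k ∈ Finset.range (3 + n), a k =
      ∑ k ∈ Finset.range (3 + n), a k - κ * b * ∑ k ∈ Finset.range (3 + n), a k := by ring
  rw [h8]
  have h9 : κ * b * (1 + ((n : ℝ) + 2) * b + ∑ x ∈ Finset.range n, a (2 + x)) =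
      κ * b + κ * ((n : ℝ) + 2) * b ^ 2 + κ * b * ∑ x ∈ Finset.range n, a (2 + x) := by ring
  rw [h9] at h6
  linarith

theorem num_s {N : ℕ} (hN : 1 ≤ N) {b : ℝ} (h0 : 0 ≤ b) (h2 : b * ((N : ℝ) + 1) ≤ 2) :
    (1 - (N : ℝ) * ((N : ℝ) + 1) / (3 * (N : ℝ) + 2) * b) * (1 + b) ^ (N + 1) ≤
      1 + ((N : ℝ) + 1) * b := by
  obtain ⟨n, rfl⟩ : ∃ n, N = n + 1 := ⟨N - 1, by omega⟩
  have hn0 : (0 : ℝ) ≤ (n : ℝ) := Nat.cast_nonneg _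
  have hc : ((n + 1 : ℕ) : ℝ) = (n : ℝ) + 1 := by push_cast; ring
  rw [hc] at h2 ⊢
  obtain ⟨κ, hκd⟩ : ∃ κ : ℝ, κ = ((n : ℝ) + 1) * ((n : ℝ) + 1 + 1) / (3 * ((n : ℝ) + 1) + 2) :=
    ⟨_, rfl⟩
  have hD : (0 : ℝ) < 3 * ((n : ℝ) + 1) + 2 := by positivity
  have hκ : (n : ℝ) / 3 ≤ κ := by
    rw [hκd, div_le_div_iff₀ (by norm_num) hD]
    nlinarith
  have h := numS_aux n h0 hκ
  rw [← hκd, show n + 1 + 1 = n + 2 by omega]
  refine h.trans ?_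
  have hκm : κ * (3 * (n : ℝ) + 5) = ((n : ℝ) + 1) * ((n : ℝ) + 2) := by
    rw [hκd, div_mul_eq_mul_div, div_eq_iff hD.ne']
    ring
  have h3 : (((n : ℝ) + 2) * ((n : ℝ) + 1) / 2 - κ * ((n : ℝ) + 2)) * b ≤ κ := by
    have hD' : (0 : ℝ) < 3 * (n : ℝ) + 5 := by positivity
    have h4 : (3 * (n : ℝ) + 5) * ((((n : ℝ) + 2) * ((n : ℝ) + 1) / 2 - κ * ((n : ℝ) + 2)) * b) ≤
        (3 * (n : ℝ) + 5) * κ := by
      have h5 : (3 * (n : ℝ) + 5) * ((((n : ℝ) + 2) * ((n : ℝ) + 1) / 2 - κ * ((n : ℝ) + 2)) * b) =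
          ((n : ℝ) + 1) ^ 2 / 2 * (b * ((n : ℝ) + 1 + 1)) := by
        have h6 : (3 * (n : ℝ) + 5) * ((((n : ℝ) + 2) * ((n : ℝ) + 1) / 2 -
            κ * ((n : ℝ) + 2)) * b) = ((n : ℝ) + 2) * b * ((3 * (n : ℝ) + 5) *
            (((n : ℝ) + 1) / 2) - κ * (3 * (n : ℝ) + 5)) := by ring
        rw [h6, hκm]
        ring
      rw [h5, mul_comm (3 * (n : ℝ) + 5) κ, hκm]
      nlinarith [mul_le_mul_of_nonneg_left h2 (show (0 : ℝ) ≤ ((n : ℝ) + 1) ^ 2 / 2 by positivity)]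
    exact le_of_mul_le_mul_left h4 hD'
  nlinarith [mul_le_mul_of_nonneg_left h3 h0]

end Vale.Agent.P254U
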