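import Vale.Agent.Lib.P254U.RV.PP
import Vale.Agent.Lib.P254U.RV.NumS

/-!
P254U/RV/HH: the second differential inequality.

Put `c = (N+2)(N+3)^(N+1)`, `K x = c Fx x * Jx x ^ N / x^((N+3)N) - x^(N+3)`, apply `barrier`:
we need `K ≤ 0` on `(0,X]`.
`g = (r x / x)^2`, `ε = (N+2) Ex g^N / x^(N+2)`, `α = (N+2)(N+3) Fx g^N / x^(N+3)`,
`β = (N+3) Jx / (x^(N+3) g)`, `H = α β^N = c Fx Jx^N / x^((N+3)(N+1))`, `K = x^(N+3) (H - 1)`.
`h0`: `0 ≤ H ≤ ((N+3)/(N+1))^N` by `Fx_le`, `Jx_le`.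
`hs`: `K` is differentiable on `(0,X)` (`Fx_deriv`, `Jx_deriv`), with
`x K' = x^(N+3) (N+3) (H - 1) + x^(N+3) (N+3) (ε β^N - H (N+1-N/β))`.
`prof_pp` says `ε ≤ 1 - κ (β-1)` and `num_s` (with `b = β - 1`, `0 ≤ b ≤ 2/(N+1)` by `Jx_ge`, `Jx_le`)
gives `ε β^(N+1) ≤ (N+1) β - N`, i.e. `ε β^N ≤ N+1-N/β =: C ≥ 1`.  So if `H > 1` then
`x K' ≤ x^(N+3) (N+3) ((H-1) + C (1-H)) ≤ 0`.
-/

open MeasureTheory Set

namespace Vale.Agent.P254U

variable {N : ℕ} {X : ℝ} {r : ℝ → ℝ}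

/-- `1 ≤ β` and `ε β^N ≤ N + 1 - N/β` -/
private theorem HH_beta (hN : 1 ≤ N) (h : Prof X r) {x : ℝ} (hx : x ∈ Ioc (0 : ℝ) X) :
    1 ≤ ((N : ℝ) + 3) * Jx N r x / (r x ^ 2 * x ^ (N + 1)) ∧
    ((N : ℝ) + 2) * Ex N r x * (r x / x) ^ (2 * N) / x ^ (N + 2) *
      (((N : ℝ) + 3) * Jx N r x / (r x ^ 2 * x ^ (N + 1))) ^ N ≤
      (N : ℝ) + 1 - N / (((N : ℝ) + 3) * Jx N r x / (r x ^ 2 * x ^ (N + 1))) := by
  have hx0 : 0 < x := hx.1
  have hr0 : 0 < r x := h.pos x hx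
  have ha : 0 < r x ^ 2 * x ^ (N + 1) := by positivity
  have hw : 0 < x ^ (N + 2) := by positivity
  obtain ⟨β, hβ⟩ : ∃ β, β = ((N : ℝ) + 3) * Jx N r x / (r x ^ 2 * x ^ (N + 1)) := ⟨_, rfl⟩
  obtain ⟨ε, hε⟩ : ∃ ε, ε = ((N : ℝ) + 2) * Ex N r x * (r x / x) ^ (2 * N) / x ^ (N + 2) :=
    ⟨_, rfl⟩
  rw [← hβ, ← hε]
  have hN0 : (0 : ℝ) ≤ N := Nat.cast_nonneg N
  have hβ1 : 1 ≤ β := by
    rw [hβ]
    exact (one_le_div₀ ha).2 (Jx_ge h hx)
  have hβ2 : (β - 1) * ((N : ℝ) + 1) ≤ 2 := by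
    have h1 : β * ((N : ℝ) + 1) ≤ (N : ℝ) + 3 := by
      rw [hβ, div_mul_eq_mul_div, div_le_iff₀ ha]
      have h2 := Jx_le h hx (N := N)
      nlinarith [mul_le_mul_of_nonneg_left h2 (by linarith : (0 : ℝ) ≤ (N : ℝ) + 3)]
    linarith
  have hpp : ε + kapN N * β ≤ 1 + kapN N := by
    have h1 := prof_pp hN h hx
    have h2 : kapN N * ((N : ℝ) + 3) * Jx N r x * x / r x ^ 2 = kapN N * β * x ^ (N + 2) := by
      rw [hβ, pow_succ x (N + 1)]
      field_simp
    have h3 : ((N : ℝ) + 2) * Ex N r x * (r x / x) ^ (2 * N) = ε * x ^ (N + 2) := by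
      rw [hε, div_mul_cancel₀ _ hw.ne']
    rw [h2, h3, ← add_mul] at h1
    exact le_of_mul_le_mul_right h1 hw
  have hns := num_s hN (b := β - 1) (by linarith) hβ2
  have hκ : (N : ℝ) * ((N : ℝ) + 1) / (3 * (N : ℝ) + 2) = kapN N := rfl
  rw [hκ, add_sub_cancel] at hns
  refine ⟨hβ1, ?_⟩
  have hβ0 : 0 < β := by linarith
  have h4 : ε * β ^ (N + 1) ≤ 1 + ((N : ℝ) + 1) * (β - 1) := by
    refine le_trans ?_ hns
    exact mul_le_mul_of_nonneg_right (by linarith) (by positivity)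
  have h5 : (ε * β ^ N) * β ≤ ((N : ℝ) + 1 - N / β) * β := by
    have h6 : ((N : ℝ) + 1 - N / β) * β = ((N : ℝ) + 1) * β - N := by
      field_simp
    rw [h6]
    calc ε * β ^ N * β = ε * β ^ (N + 1) := by ring
      _ ≤ 1 + ((N : ℝ) + 1) * (β - 1) := h4
      _ = ((N : ℝ) + 1) * β - N := by ring
  exact le_of_mul_le_mul_right h5 hβ0

private theorem HH_upper (h : Prof X r) {x : ℝ} (hx : x ∈ Ioc (0 : ℝ) X) :
    ((N : ℝ) + 2) * ((N : ℝ) + 3) ^ (N + 1) * (Fx N r x * Jx N r x ^ N) / x ^ ((N + 3) * N) ≤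
      (((N : ℝ) + 3) / ((N : ℝ) + 1)) ^ N * x ^ (N + 3) := by
  have hx0 : 0 < x := hx.1
  have hr0 : 0 < r x := h.pos x hx
  have hN1 : (0 : ℝ) < (N : ℝ) + 1 := by positivity
  have hJ0 := (Jx_pos h hx (N := N)).le
  have hF0 := Fx_nonneg h hx (N := N)
  have hJ : Jx N r x ^ N ≤ ((r x / x) ^ 2 * x ^ (N + 3) / ((N : ℝ) + 1)) ^ N := by
    refine pow_le_pow_left₀ hJ0 ?_ N
    rw [le_div_iff₀ hN1]
    have h1 := Jx_le h hx (N := N)
    have h2 : (r x / x) ^ 2 * x ^ (N + 3) = r x ^ 2 * x ^ (N + 1) := by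
      rw [show N + 3 = (N + 1) + 2 from rfl, pow_add x (N + 1) 2]
      field_simp
    rw [h2]
    linarith
  have hJ2 : ((r x / x) ^ 2 * x ^ (N + 3) / ((N : ℝ) + 1)) ^ N =
      (r x / x) ^ (2 * N) * x ^ ((N + 3) * N) / ((N : ℝ) + 1) ^ N := by
    rw [div_pow, mul_pow, ← pow_mul, ← pow_mul]
  rw [hJ2] at hJ
  have hF := Fx_le h hx (N := N)
  have hM : 0 < x ^ ((N + 3) * N) := by positivity
  rw [div_le_iff₀ hM]
  calc ((N : ℝ) + 2) * ((N : ℝ) + 3) ^ (N + 1) * (Fx N r x * Jx N r x ^ N)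
      ≤ ((N : ℝ) + 2) * ((N : ℝ) + 3) ^ (N + 1) * (Fx N r x *
        ((r x / x) ^ (2 * N) * x ^ ((N + 3) * N) / ((N : ℝ) + 1) ^ N)) := by
        refine mul_le_mul_of_nonneg_left (mul_le_mul_of_nonneg_left hJ hF0) (by positivity)
    _ = (((N : ℝ) + 3) ^ N / ((N : ℝ) + 1) ^ N * x ^ ((N + 3) * N)) *
        (((N : ℝ) + 2) * ((N : ℝ) + 3) * Fx N r x * (r x / x) ^ (2 * N)) := by
        rw [pow_succ ((N : ℝ) + 3) N]
        ring
    _ ≤ (((N : ℝ) + 3) ^ N / ((N : ℝ) + 1) ^ N * x ^ ((N + 3) * N)) * x ^ (N + 3) :=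
        mul_le_mul_of_nonneg_left hF (by positivity)
    _ = (((N : ℝ) + 3) / ((N : ℝ) + 1)) ^ N * x ^ (N + 3) * x ^ ((N + 3) * N) := by
        rw [div_pow]
        ring

theorem prof_hh (hN : 1 ≤ N) (h : Prof X r) {x : ℝ} (hx : x ∈ Ioc (0 : ℝ) X) :
    ((N : ℝ) + 2) * ((N : ℝ) + 3) ^ (N + 1) * Fx N r x * Jx N r x ^ N ≤
      x ^ ((N + 3) * (N + 1)) := by
  have key : ∀ z ∈ Ioc (0 : ℝ) X, ((N : ℝ) + 2) * ((N : ℝ) + 3) ^ (N + 1) *
      (Fx N r z * Jx N r z ^ N) / z ^ ((N + 3) * N) - z ^ (N + 3) ≤ 0 := by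
    refine barrier ?_ ?_ ?_
    · -- continuity
      have hF : ContinuousOn (Fx N r) (Ioc 0 X) := (Fx_cont h).mono Ioc_subset_Icc_self
      have hJ : ContinuousOn (Jx N r) (Ioc 0 X) := (Jx_cont h).mono Ioc_subset_Icc_self
      refine ContinuousOn.sub (ContinuousOn.div ?_ (by fun_prop) ?_) (by fun_prop)
      · exact continuousOn_const.mul (hF.mul (hJ.pow N))
      · intro z hz
        exact pow_ne_zero _ hz.1.ne'
    · -- limit at zero
      have hX := h.X_pos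
      have hev : ∀ᶠ z in nhdsWithin (0 : ℝ) (Ioi 0), z ∈ Ioc (0 : ℝ) X := by
        filter_upwards [Ioo_mem_nhdsGT hX] with z hz
        exact ⟨hz.1, hz.2.le⟩
      have hpow : Filter.Tendsto (fun z : ℝ => z ^ (N + 3)) (nhdsWithin (0 : ℝ) (Ioi 0))
          (nhds 0) := by
        have h1 : Filter.Tendsto (fun z : ℝ => z ^ (N + 3)) (nhds 0) (nhds ((0 : ℝ) ^ (N + 3))) :=
          (continuous_pow (N + 3)).tendsto 0
        rw [zero_pow (by omega)] at h1
        exact h1.mono_left nhdsWithin_le_nhds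
      have h2 : Filter.Tendsto (fun z : ℝ => ((N : ℝ) + 2) * ((N : ℝ) + 3) ^ (N + 1) *
          (Fx N r z * Jx N r z ^ N) / z ^ ((N + 3) * N)) (nhdsWithin (0 : ℝ) (Ioi 0))
          (nhds 0) := by
        have hpow' := hpow.const_mul ((((N : ℝ) + 3) / ((N : ℝ) + 1)) ^ N)
        rw [mul_zero] at hpow'
        refine squeeze_zero' ?_ ?_ hpow'
        · filter_upwards [hev] with z hz
          have hz0 : 0 < z := hz.1
          have hJ0 := (Jx_pos h hz (N := N)).le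
          have hF0 := Fx_nonneg h hz (N := N)
          positivity
        · filter_upwards [hev] with z hz
          exact HH_upper h hz
      simpa using h2.sub hpow
    · -- slopes
      intro x hx hK δ hδ
      have hx' : x ∈ Ioc (0 : ℝ) X := ⟨hx.1, hx.2.le⟩
      have hx0 : 0 < x := hx.1
      have hr0 : 0 < r x := h.pos x hx'
      have hN0 : (0 : ℝ) ≤ N := Nat.cast_nonneg N
      have hJ0 := Jx_pos h hx' (N := N)
      have hF0 := Fx_nonneg h hx' (N := N)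
      obtain ⟨hβ1, hβ2⟩ := HH_beta hN h hx'
      have hder := ((((Fx_deriv h hx (N := N)).mul ((Jx_deriv h hx (N := N)).pow N)).const_mul
        (((N : ℝ) + 2) * ((N : ℝ) + 3) ^ (N + 1))).div (hasDerivAt_pow ((N + 3) * N) x)
        (pow_ne_zero _ hx0.ne')).sub (hasDerivAt_pow (N + 3) x)
      obtain ⟨D, hD⟩ : ∃ D, D = (((N : ℝ) + 2) * ((N : ℝ) + 3) ^ (N + 1) *
          (Ex N r x * (Jx N r ^ N) x + Fx N r x *
            ((N : ℝ) * Jx N r x ^ (N - 1) * (r x ^ 2 * x ^ N))) * x ^ ((N + 3) * N) -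
          ((N : ℝ) + 2) * ((N : ℝ) + 3) ^ (N + 1) * (Fx N r x * (Jx N r ^ N) x) *
            ((((N + 3) * N : ℕ) : ℝ) * x ^ ((N + 3) * N - 1))) / (x ^ ((N + 3) * N)) ^ 2 -
          ((N + 3 : ℕ) : ℝ) * x ^ (N + 3 - 1) := ⟨_, rfl⟩
      have hder' : HasDerivAt (fun z : ℝ => ((N : ℝ) + 2) * ((N : ℝ) + 3) ^ (N + 1) *
          (Fx N r z * Jx N r z ^ N) / z ^ ((N + 3) * N) - z ^ (N + 3)) D x := by
        rw [hD]
        exact hder
      have hD0 : D ≤ 0 := by
        obtain ⟨β, hβ⟩ : ∃ β, β = ((N : ℝ) + 3) * Jx N r x / (r x ^ 2 * x ^ (N + 1)) := ⟨_, rfl⟩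
        obtain ⟨ε, hε⟩ : ∃ ε, ε = ((N : ℝ) + 2) * Ex N r x * (r x / x) ^ (2 * N) /
          x ^ (N + 2) := ⟨_, rfl⟩
        rw [← hβ] at hβ1
        rw [← hβ, ← hε] at hβ2
        have hβ0 : 0 < β := by linarith
        have ha : 0 < r x ^ 2 * x ^ (N + 1) := by positivity
        have hP0 : 0 < x ^ ((N + 3) * N) := by positivity
        have hy0 : 0 < x ^ (N + 3) := by positivity
        have hw0 : 0 < x ^ (N + 2) := by positivity
        have hg0 : 0 < (r x / x) ^ (2 * N) := by positivity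
        have haβ : r x ^ 2 * x ^ (N + 1) * β = ((N : ℝ) + 3) * Jx N r x := by
          rw [hβ]
          field_simp
        have haN : (r x ^ 2 * x ^ (N + 1)) ^ N = (r x / x) ^ (2 * N) * x ^ ((N + 3) * N) := by
          have h2 : (r x / x) ^ 2 * x ^ (N + 3) = r x ^ 2 * x ^ (N + 1) := by
            rw [show N + 3 = (N + 1) + 2 from rfl, pow_add x (N + 1) 2]
            field_simp
          rw [← h2, mul_pow, ← pow_mul, ← pow_mul]
        have hβN : β ^ N = ((N : ℝ) + 3) ^ N * Jx N r x ^ N /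
            ((r x / x) ^ (2 * N) * x ^ ((N + 3) * N)) := by
          rw [hβ, div_pow, mul_pow, haN]
        have hT1 : Jx N r x ^ (N - 1) * Jx N r x = Jx N r x ^ N := pow_sub_one_mul (by omega) _
        have hP1 : x ^ ((N + 3) * N - 1) * x = x ^ ((N + 3) * N) := by
          refine pow_sub_one_mul ?_ _
          have : 0 < (N + 3) * N := by positivity
          omega
        have hy1 : x ^ (N + 3 - 1) * x = x ^ (N + 3) := pow_sub_one_mul (by omega) _
        have hyw : x ^ (N + 3) = x ^ (N + 2) * x := pow_succ x (N + 2)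
        have hxN : x ^ (N + 1) = x ^ N * x := pow_succ x N
        have e1 : ((N : ℝ) + 3) * x ^ (N + 3) * (ε * β ^ N) =
            ((N : ℝ) + 2) * ((N : ℝ) + 3) ^ (N + 1) * Ex N r x * Jx N r x ^ N * x /
              x ^ ((N + 3) * N) := by
          rw [hβN, hε, hyw, pow_succ ((N : ℝ) + 3) N]
          generalize (r x / x) ^ (2 * N) = g at hg0
          generalize x ^ ((N + 3) * N) = P at hP0
          generalize x ^ (N + 2) = w at hw0
          generalize Jx N r x ^ N = T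
          generalize ((N : ℝ) + 3) ^ N = c3
          field_simp
        have e2 : Jx N r x ^ (N - 1) * (r x ^ 2 * x ^ N) * x * β =
            ((N : ℝ) + 3) * Jx N r x ^ N := by
          rw [← hT1]
          rw [hxN] at haβ
          linear_combination Jx N r x ^ (N - 1) * haβ
        have hD1 : x * D = ((N : ℝ) + 3) * (x ^ (N + 3) * (ε * β ^ N - ((N : ℝ) + 1 - N / β)) +
            N * (1 - 1 / β) * (x ^ (N + 3) - ((N : ℝ) + 2) * ((N : ℝ) + 3) ^ (N + 1) *
              (Fx N r x * Jx N r x ^ N) / x ^ ((N + 3) * N))) := by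
          rw [hD, show N + 3 - 1 = N + 2 from rfl]
          simp only [Pi.pow_apply]
          push_cast
          rw [← hP1] at hP0 e1 ⊢
          rw [hyw] at hy0 e1 ⊢
          have e3 : Jx N r x ^ (N - 1) * (r x ^ 2 * x ^ N) * x =
              ((N : ℝ) + 3) * Jx N r x ^ N / β := by
            rw [eq_div_iff hβ0.ne']
            exact e2
          generalize x ^ ((N + 3) * N - 1) = P1 at *
          generalize x ^ (N + 2) = y1 at *
          generalize Jx N r x ^ N = T at *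
          generalize Jx N r x ^ (N - 1) = T1 at *
          generalize r x ^ 2 * x ^ N = a0 at *
          generalize ((N : ℝ) + 3) ^ (N + 1) = c3 at *
          generalize β ^ N = bN at *
          have hP1' : P1 ≠ 0 := by
            rintro rfl
            simp at hP0
          have e4 : x * (((N : ℝ) + 2) * c3 * (Ex N r x * T + Fx N r x * (N * T1 * a0)) *
              (P1 * x) - ((N : ℝ) + 2) * c3 * (Fx N r x * T) * (((N : ℝ) + 3) * N * P1)) /
                (P1 * x) ^ 2 = ((N : ℝ) + 2) * c3 * Ex N r x * T * x / (P1 * x) +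
                ((N : ℝ) + 2) * c3 * Fx N r x * N * (T1 * a0 * x) / (P1 * x) -
                ((N : ℝ) + 2) * c3 * (Fx N r x * T) * (((N : ℝ) + 3) * N) / (P1 * x) := by
            field_simp
          rw [mul_sub, ← mul_div_assoc, e4, ← e1, e3]
          field_simp
          ring
        have h5 : ε * β ^ N - ((N : ℝ) + 1 - N / β) ≤ 0 := by linarith
        have h6 : 0 ≤ 1 - 1 / β := by
          rw [sub_nonneg, div_le_one hβ0]
          exact hβ1
        have h7 : x ^ (N + 3) * (ε * β ^ N - ((N : ℝ) + 1 - N / β)) ≤ 0 :=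
          mul_nonpos_of_nonneg_of_nonpos hy0.le h5
        have h8 : N * (1 - 1 / β) * (x ^ (N + 3) - ((N : ℝ) + 2) * ((N : ℝ) + 3) ^ (N + 1) *
              (Fx N r x * Jx N r x ^ N) / x ^ ((N + 3) * N)) ≤ 0 :=
          mul_nonpos_of_nonneg_of_nonpos (mul_nonneg hN0 h6) (by linarith)
        have h9 : x * D ≤ 0 := by
          rw [hD1]
          exact mul_nonpos_of_nonneg_of_nonpos (by linarith) (by linarith)
        by_contra hcon
        push Not at hcon
        have := mul_pos hx0 hcon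
        linarith
      have hlo := hder'.isLittleO.bound hδ
      have hlo' := hlo.filter_mono (nhdsWithin_le_nhds (s := Ioi x))
      filter_upwards [hlo', self_mem_nhdsWithin] with z hz hzx
      have hzx' : 0 < z - x := sub_pos.2 hzx
      rw [Real.norm_eq_abs, Real.norm_eq_abs, abs_of_pos hzx', smul_eq_mul] at hz
      have h10 := (le_abs_self _).trans hz
      have h11 : (z - x) * D ≤ 0 := mul_nonpos_of_nonneg_of_nonpos hzx'.le hD0
      linarith
  have h1 := key x hx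
  have hx0 : 0 < x := hx.1
  have hM : 0 < x ^ ((N + 3) * N) := by positivity
  have h2 : ((N : ℝ) + 2) * ((N : ℝ) + 3) ^ (N + 1) *
      (Fx N r x * Jx N r x ^ N) / x ^ ((N + 3) * N) ≤ x ^ (N + 3) := by linarith
  rw [div_le_iff₀ hM, ← pow_add] at h2
  calc ((N : ℝ) + 2) * ((N : ℝ) + 3) ^ (N + 1) * Fx N r x * Jx N r x ^ N
      = ((N : ℝ) + 2) * ((N : ℝ) + 3) ^ (N + 1) * (Fx N r x * Jx N r x ^ N) := by ring
    _ ≤ x ^ (N + 3 + (N + 3) * N) := h2
    _ = x ^ ((N + 3) * (N + 1)) := by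
        congr 1
        ring

end Vale.Agent.P254U
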