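import Vale.Agent.Lib.P254U.RV.Bds

/-!
P254U/RV/Link: from an increasing concave function `ρ` on `[0,h]` to a profile.

`V t = ∫_0^t ρ^N`, `U t = (V t)^(1/(N+1))`: continuous, strictly increasing on `[0,h]`, `U 0 = 0`,
`U h = X`.  On `(0,h)`, `(N+1) (U t)^N U' t = ρ(t)^N`.  `r x = ρ (U⁻¹ x)` (`U⁻¹ : [0,X] → [0,h]`
continuous, strictly increasing; e.g. define it by `sSup {t ∈ [0,h] | U t ≤ x}`).
`Prof.anti`: `ρ/U` is nonincreasing, i.e. `ρ(t)^(N+1) V(s) ≤ ρ(s)^(N+1) V(t)` for `0 < s < t ≤ h`.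
Let `σ = (ρ t - ρ s)/(t - s) ≥ 0`.  `σ = 0`: `ρ t = ρ s`, `V s ≤ V t`.  `σ > 0`: by concavity
`ρ x ≤ ρ s + σ (x - s)` for `x ≤ s` and `ρ x ≥ ρ s + σ (x - s)` for `s ≤ x ≤ t`, so
`V s ≤ ρ(s)^(N+1)/((N+1)σ)` (where the line is nonnegative; `ρ ≥ 0` forces it) and
`V t - V s ≥ (ρ(t)^(N+1) - ρ(s)^(N+1))/((N+1)σ)`; divide.
Change of variables `x = U t` (`intervalIntegral.integral_comp_mul_deriv'''`, integrand
`φ(U⁻¹ x) (N+1) x^N`): `∫_0^h φ ρ^N dt = ∫_0^X φ(U⁻¹ x) (N+1) x^N dx` for continuous `φ`, and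
`U⁻¹ x = Tx N r x = ∫_0^x (N+1) (s / r s)^N ds` (`(U⁻¹)' = (N+1) x^N / r^N`, bounded).
-/

open MeasureTheory Set

namespace Vale.Agent.P254U

private theorem Link_inv {f : ℝ → ℝ} (hf : Continuous f) (h0 : ∀ t, 0 ≤ f t)
    (hpos : ∀ t, t ≠ 0 → 0 < f t) {c h : ℝ} (hh : 0 < h) (hcpos : 0 < c)
    (hc : ∀ t, h ≤ |t| → c ≤ f t) :
    ∃ W : ℝ → ℝ, Continuous W ∧ StrictMono W ∧ (∀ t, W (∫ s in (0 : ℝ)..t, f s) = t) ∧
      (∀ v, (∫ s in (0 : ℝ)..(W v), f s) = v) := by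
  have hint : ∀ a b, IntervalIntegrable f volume a b := fun a b => hf.intervalIntegrable a b
  have hcont : Continuous (fun t : ℝ => ∫ s in (0 : ℝ)..t, f s) :=
    intervalIntegral.continuous_primitive hint 0
  have hmono : StrictMono (fun t : ℝ => ∫ s in (0 : ℝ)..t, f s) := by
    intro a b hab
    have h1 : 0 < ∫ s in a..b, f s := by
      refine intervalIntegral.integral_pos hab hf.continuousOn (fun x _ => h0 x) ?_
      by_cases ha : a = 0
      · exact ⟨b, right_mem_Icc.2 hab.le, hpos b (by rw [ha] at hab; exact hab.ne')⟩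
      · exact ⟨a, left_mem_Icc.2 hab.le, hpos a ha⟩
    have h2 := intervalIntegral.integral_interval_sub_left (hint 0 b) (hint 0 a)
    show ∫ s in (0 : ℝ)..a, f s < ∫ s in (0 : ℝ)..b, f s
    linarith
  have htop : Filter.Tendsto (fun t : ℝ => ∫ s in (0 : ℝ)..t, f s) Filter.atTop
      Filter.atTop := by
    have h1 : Filter.Tendsto (fun t : ℝ => c * (t - h)) Filter.atTop Filter.atTop :=
      (Filter.tendsto_atTop_add_const_right _ (-h) Filter.tendsto_id).const_mul_atTop hcpos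
    refine Filter.tendsto_atTop_mono' _ ?_ h1
    filter_upwards [Filter.eventually_ge_atTop h] with t ht
    have h2 : ∫ _s in h..t, c ≤ ∫ s in h..t, f s := by
      refine intervalIntegral.integral_mono_on ht (by simp) (hint _ _) (fun x hx => ?_)
      exact hc x (by rw [abs_of_pos (hh.trans_le hx.1)]; exact hx.1)
    rw [intervalIntegral.integral_const, smul_eq_mul] at h2
    have h3 := intervalIntegral.integral_interval_sub_left (hint 0 t) (hint 0 h)
    have h4 : 0 ≤ ∫ s in (0 : ℝ)..h, f s :=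
      intervalIntegral.integral_nonneg hh.le (fun x _ => h0 x)
    linarith
  have hbot : Filter.Tendsto (fun t : ℝ => ∫ s in (0 : ℝ)..t, f s) Filter.atBot
      Filter.atBot := by
    have h1 : Filter.Tendsto (fun t : ℝ => c * (t + h)) Filter.atBot Filter.atBot :=
      (Filter.tendsto_atBot_add_const_right _ h Filter.tendsto_id).const_mul_atBot hcpos
    refine Filter.tendsto_atBot_mono' _ ?_ h1
    filter_upwards [Filter.eventually_le_atBot (-h)] with t ht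
    have h2 : ∫ _s in t..(-h), c ≤ ∫ s in t..(-h), f s := by
      refine intervalIntegral.integral_mono_on ht (by simp) (hint _ _) (fun x hx => ?_)
      exact hc x (by rw [abs_of_neg (by linarith [hx.2])]; linarith [hx.2])
    rw [intervalIntegral.integral_const, smul_eq_mul] at h2
    have h3 := intervalIntegral.integral_interval_sub_left (hint 0 (-h)) (hint 0 t)
    have h4 : 0 ≤ ∫ s in (-h)..(0 : ℝ), f s :=
      intervalIntegral.integral_nonneg (by linarith) (fun x _ => h0 x)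
    have h5 : ∫ s in (0 : ℝ)..(-h), f s = - ∫ s in (-h)..(0 : ℝ), f s :=
      intervalIntegral.integral_symm _ _
    linarith
  have hsurj := hcont.surjective htop hbot
  let e : ℝ ≃o ℝ := StrictMono.orderIsoOfSurjective _ hmono hsurj
  refine ⟨e.symm, e.symm.continuous, e.symm.strictMono, fun t => ?_, fun v => ?_⟩
  · exact e.symm_apply_apply t
  · exact e.apply_symm_apply v

/-- the comparison of `ρ ^ (N + 1)` with its integral -/
private theorem Link_anti {N : ℕ} {h : ℝ} {ρ : ℝ → ℝ}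
    (hc : ContinuousOn ρ (Icc 0 h)) (hconc : ConcaveOn ℝ (Icc 0 h) ρ)
    (hmono : MonotoneOn ρ (Icc 0 h)) (h0 : 0 ≤ ρ 0) {s t : ℝ} (hs : 0 < s) (hst : s ≤ t)
    (ht : t ≤ h) :
    ρ t ^ (N + 1) * (∫ x in (0 : ℝ)..s, ρ x ^ N) ≤
      ρ s ^ (N + 1) * (∫ x in (0 : ℝ)..t, ρ x ^ N) := by
  rcases hst.eq_or_lt with rfl | hst'
  · exact le_rfl
  have hmem0 : (0 : ℝ) ∈ Icc 0 h := ⟨le_rfl, by linarith⟩
  have hmems : s ∈ Icc 0 h := ⟨hs.le, by linarith⟩
  have hmemt : t ∈ Icc 0 h := ⟨by linarith, ht⟩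
  have hρ0 : ∀ x ∈ Icc 0 h, 0 ≤ ρ x := fun x hx => h0.trans (hmono hmem0 hx hx.1)
  have hcN : ContinuousOn (fun x => ρ x ^ N) (Icc 0 h) := hc.pow N
  have hint : ∀ a ∈ Icc 0 h, ∀ b ∈ Icc 0 h, IntervalIntegrable (fun x => ρ x ^ N) volume a b :=
    fun a ha b hb => (hcN.mono (uIcc_subset_Icc ha hb)).intervalIntegrable
  obtain ⟨σ, hσ⟩ : ∃ σ : ℝ, σ = (ρ t - ρ s) / (t - s) := ⟨_, rfl⟩
  have hts : 0 < t - s := by linarith
  have hσ0 : 0 ≤ σ := by
    rw [hσ]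
    exact div_nonneg (sub_nonneg.2 (hmono hmems hmemt hst)) hts.le
  have hσt : ρ t = ρ s + σ * (t - s) := by
    rw [hσ, div_mul_cancel₀ _ hts.ne']; ring
  -- the line dominates on the left
  have hleft : ∀ x ∈ Icc 0 s, ρ x ≤ ρ s + σ * (x - s) := by
    intro x hx
    rcases hx.2.eq_or_lt with rfl | hxs
    · simp
    have h1 := hconc.slope_anti_adjacent (x := x) (y := s) (z := t) ⟨hx.1, by linarith⟩ hmemt
      hxs hst'
    rw [← hσ, le_div_iff₀ (by linarith)] at h1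
    linarith
  have hright : ∀ x ∈ Icc s t, ρ s + σ * (x - s) ≤ ρ x := by
    intro x hx
    rcases hx.1.eq_or_lt with rfl | hxs
    · simp
    rcases hx.2.eq_or_lt with rfl | hxt
    · linarith
    have h1 := hconc.slope_anti_adjacent (x := s) (y := x) (z := t) hmems hmemt hxs hxt
    rw [div_le_div_iff₀ (by linarith) (by linarith)] at h1
    have h2 : (ρ x - ρ s) * (t - s) ≥ (ρ t - ρ s) * (x - s) := by nlinarith
    have h3 : (ρ t - ρ s) * (x - s) = σ * (x - s) * (t - s) := by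
      rw [hσt]; ring
    rw [h3] at h2
    have h4 := le_of_mul_le_mul_right h2 hts
    linarith
  -- the primitive of the line
  have hprim : ∀ a b : ℝ, ∫ x in a..b, ((N : ℝ) + 1) * σ * (ρ s + σ * (x - s)) ^ N =
      (ρ s + σ * (b - s)) ^ (N + 1) - (ρ s + σ * (a - s)) ^ (N + 1) := by
    intro a b
    refine intervalIntegral.integral_eq_sub_of_hasDerivAt
      (f := fun x => (ρ s + σ * (x - s)) ^ (N + 1)) (fun x _ => ?_)
      (Continuous.intervalIntegrable (by fun_prop) _ _)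
    have h1 : HasDerivAt (fun x : ℝ => ρ s + σ * (x - s)) σ x := by
      have h2 := (((hasDerivAt_id x).sub_const s).const_mul σ).const_add (ρ s)
      simpa using h2
    have h3 := h1.pow (N + 1)
    have e : ((N + 1 : ℕ) : ℝ) * (ρ s + σ * (x - s)) ^ (N + 1 - 1) * σ =
        ((N : ℝ) + 1) * σ * (ρ s + σ * (x - s)) ^ N := by
      rw [Nat.add_sub_cancel]
      push_cast
      ring
    rw [← e]
    exact h3
  have hN1 : (0 : ℝ) ≤ ((N : ℝ) + 1) * σ := by positivity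
  -- (i)
  have hi : ((N : ℝ) + 1) * σ * (∫ x in (0 : ℝ)..s, ρ x ^ N) ≤ ρ s ^ (N + 1) := by
    rw [← intervalIntegral.integral_const_mul]
    have h1 : ∫ x in (0 : ℝ)..s, ((N : ℝ) + 1) * σ * ρ x ^ N ≤
        ∫ x in (0 : ℝ)..s, ((N : ℝ) + 1) * σ * (ρ s + σ * (x - s)) ^ N := by
      refine intervalIntegral.integral_mono_on hs.le ((hint 0 hmem0 s hmems).const_mul _)
        (Continuous.intervalIntegrable (by fun_prop) _ _) (fun x hx => ?_)
      refine mul_le_mul_of_nonneg_left ?_ hN1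
      exact pow_le_pow_left₀ (hρ0 x ⟨hx.1, by linarith [hx.2]⟩) (hleft x hx) N
    rw [hprim] at h1
    have h2 : 0 ≤ (ρ s + σ * (0 - s)) ^ (N + 1) :=
      pow_nonneg (h0.trans (hleft 0 ⟨le_rfl, hs.le⟩)) _
    rw [sub_self, mul_zero, add_zero] at h1
    linarith
  -- (ii)
  have hii : ρ t ^ (N + 1) - ρ s ^ (N + 1) ≤
      ((N : ℝ) + 1) * σ * (∫ x in s..t, ρ x ^ N) := by
    rw [← intervalIntegral.integral_const_mul]
    have h1 : ∫ x in s..t, ((N : ℝ) + 1) * σ * (ρ s + σ * (x - s)) ^ N ≤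
        ∫ x in s..t, ((N : ℝ) + 1) * σ * ρ x ^ N := by
      refine intervalIntegral.integral_mono_on hst (Continuous.intervalIntegrable (by fun_prop) _ _)
        ((hint s hmems t hmemt).const_mul _) (fun x hx => ?_)
      refine mul_le_mul_of_nonneg_left ?_ hN1
      refine pow_le_pow_left₀ ?_ (hright x hx) N
      have := hρ0 s hmems
      have h2 : 0 ≤ σ * (x - s) := mul_nonneg hσ0 (by linarith [hx.1])
      linarith
    rw [hprim, sub_self, mul_zero, add_zero, ← hσt] at h1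
    exact h1
  have hsplit := intervalIntegral.integral_add_adjacent_intervals (hint 0 hmem0 s hmems)
    (hint s hmems t hmemt)
  have hVs : 0 ≤ ∫ x in (0 : ℝ)..s, ρ x ^ N :=
    intervalIntegral.integral_nonneg hs.le
      (fun x hx => pow_nonneg (hρ0 x ⟨hx.1, by linarith [hx.2]⟩) N)
  have hVst : 0 ≤ ∫ x in s..t, ρ x ^ N :=
    intervalIntegral.integral_nonneg hst
      (fun x hx => pow_nonneg (hρ0 x ⟨by linarith [hx.1], by linarith [hx.2]⟩) N)
  rw [← hsplit]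
  generalize (∫ x in (0 : ℝ)..s, ρ x ^ N) = A at *
  generalize (∫ x in s..t, ρ x ^ N) = B at *
  generalize ρ t ^ (N + 1) = a at *
  generalize ρ s ^ (N + 1) = b at *
  have h1 : (a - b) * A ≤ ((N : ℝ) + 1) * σ * B * A := mul_le_mul_of_nonneg_right hii hVs
  have h2 : ((N : ℝ) + 1) * σ * A * B ≤ b * B := mul_le_mul_of_nonneg_right hi hVst
  nlinarith

theorem exists_prof {N : ℕ} (hN : 1 ≤ N) {h : ℝ} (hh : 0 < h) {ρ : ℝ → ℝ}
    (hc : ContinuousOn ρ (Icc 0 h)) (hconc : ConcaveOn ℝ (Icc 0 h) ρ)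
    (hmono : MonotoneOn ρ (Icc 0 h)) (h0 : 0 ≤ ρ 0) (hpos : ∀ t ∈ Ioc (0 : ℝ) h, 0 < ρ t) :
    ∃ (X : ℝ) (r : ℝ → ℝ), Prof X r ∧
      (∫ t in (0 : ℝ)..h, ρ t ^ N = X ^ (N + 1)) ∧
      (∫ t in (0 : ℝ)..h, ρ t ^ (N + 2) = ((N : ℝ) + 1) * Jx N r X) ∧
      (∫ t in (0 : ℝ)..h, t * ρ t ^ N =
        ∫ x in (0 : ℝ)..X, Tx N r x * (((N : ℝ) + 1) * x ^ N)) ∧
      (∫ t in (0 : ℝ)..h, t ^ 2 * ρ t ^ N =
        ∫ x in (0 : ℝ)..X, Tx N r x ^ 2 * (((N : ℝ) + 1) * x ^ N)) := by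
  set P : ℝ → ℝ := fun t => ρ (min |t| h) with hP
  have hPc : Continuous P := by
    refine hc.comp_continuous (by fun_prop) (fun t => ⟨le_min (abs_nonneg t) hh.le,
      min_le_right _ _⟩)
  have hPeq : ∀ t ∈ Icc 0 h, P t = ρ t := by
    intro t ht
    rw [hP]
    simp only
    rw [abs_of_nonneg ht.1, min_eq_left ht.2]
  have hPpos : ∀ t, t ≠ 0 → 0 < P t := fun t ht =>
    hpos _ ⟨lt_min (abs_pos.2 ht) hh, min_le_right _ _⟩
  have hP0 : ∀ t, 0 ≤ P t := by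
    intro t
    by_cases ht : t = 0
    · rw [ht, hPeq 0 ⟨le_rfl, hh.le⟩]
      exact h0
    · exact (hPpos t ht).le
  have hfc : Continuous (fun t => P t ^ N) := hPc.pow N
  obtain ⟨W, hWc, hWm, hWV, hVW⟩ := Link_inv (f := fun t => P t ^ N) hfc
    (fun t => pow_nonneg (hP0 t) N) (fun t ht => pow_pos (hPpos t ht) N) hh
    (c := ρ h ^ N) (pow_pos (hpos h ⟨hh, le_rfl⟩) N) (fun t ht => by
      show ρ h ^ N ≤ ρ (min |t| h) ^ N
      rw [min_eq_right ht])
  set V : ℝ → ℝ := fun t => ∫ s in (0 : ℝ)..t, P s ^ N with hV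
  have hWV' : ∀ t, W (V t) = t := hWV
  have hVW' : ∀ v, V (W v) = v := hVW
  have hVeq : ∀ t ∈ Icc 0 h, V t = ∫ s in (0 : ℝ)..t, ρ s ^ N := by
    intro t ht
    refine intervalIntegral.integral_congr (fun s hs => ?_)
    rw [uIcc_of_le ht.1] at hs
    show P s ^ N = ρ s ^ N
    rw [hPeq s ⟨hs.1, hs.2.trans ht.2⟩]
  have hV0 : V 0 = 0 := by simp [hV]
  have hW0 : W 0 = 0 := by
    have := hWV' 0
    rwa [hV0] at this
  have hVh : 0 < V h := by
    have h1 : W 0 < W (V h) := by rw [hW0, hWV']; exact hh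
    exact hWm.lt_iff_lt.1 h1
  obtain ⟨X, hX0, hXV⟩ : ∃ X : ℝ, 0 < X ∧ X ^ (N + 1) = V h :=
    ⟨V h ^ (((N + 1 : ℕ) : ℝ)⁻¹), Real.rpow_pos_of_pos hVh _,
      Real.rpow_inv_natCast_pow hVh.le (Nat.succ_ne_zero N)⟩
  set g : ℝ → ℝ := fun x => W (x ^ (N + 1)) with hg
  have hgc : Continuous g := hWc.comp (continuous_pow (N + 1))
  have hg0 : g 0 = 0 := by
    rw [hg]
    simp [hW0]
  have hgX : g X = h := by
    show W (X ^ (N + 1)) = h
    rw [hXV, hWV']
  have hgm : ∀ x y, 0 ≤ x → x ≤ y → g x ≤ g y := fun x y hx hxy =>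
    hWm.monotone (pow_le_pow_left₀ hx hxy _)
  have hgm' : ∀ x y, 0 ≤ x → x < y → g x < g y := fun x y hx hxy =>
    hWm (pow_lt_pow_left₀ hxy hx (Nat.succ_ne_zero N))
  have hgI : ∀ x ∈ Icc 0 X, g x ∈ Icc 0 h := by
    intro x hx
    refine ⟨?_, ?_⟩
    · rw [← hg0]; exact hgm 0 x le_rfl hx.1
    · rw [← hgX]; exact hgm x X hx.1 hx.2
  have hgI' : ∀ x ∈ Ioc 0 X, g x ∈ Ioc 0 h := by
    intro x hx
    refine ⟨?_, (hgI x ⟨hx.1.le, hx.2⟩).2⟩
    rw [← hg0]; exact hgm' 0 x le_rfl hx.1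
  have hVg : ∀ x, V (g x) = x ^ (N + 1) := fun x => hVW' _
  set r : ℝ → ℝ := fun x => ρ (g x) with hr
  have hrP : ∀ x ∈ Icc 0 X, P (g x) = r x := fun x hx => hPeq _ (hgI x hx)
  have hrpos : ∀ x ∈ Ioc (0 : ℝ) X, 0 < r x := fun x hx => hpos _ (hgI' x hx)
  have hr0 : ∀ x ∈ Icc (0 : ℝ) X, 0 ≤ r x := fun x hx => by
    rw [← hrP x hx]; exact hP0 _
  have hprof : Prof X r := by
    refine ⟨hX0, hrpos, ?_, ?_⟩
    · intro x hx y hy hxy
      exact hmono (hgI x ⟨hx.1.le, hx.2⟩) (hgI y ⟨hy.1.le, hy.2⟩) (hgm x y hx.1.le hxy)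
    · intro x hx y hy hxy
      have h1 := Link_anti (N := N) hc hconc hmono h0 (hgI' x hx).1 (hgm x y hx.1.le hxy)
        (hgI' y hy).2
      rw [← hVeq _ (hgI x ⟨hx.1.le, hx.2⟩), ← hVeq _ (hgI y ⟨hy.1.le, hy.2⟩), hVg, hVg] at h1
      have h2 : (r y * x) ^ (N + 1) ≤ (r x * y) ^ (N + 1) := by
        rw [mul_pow, mul_pow]
        exact h1
      exact le_of_pow_le_pow_left₀ (Nat.succ_ne_zero N)
        (mul_nonneg (hrpos x hx).le hy.1.le) h2
  -- derivative of `g`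
  have hVd : ∀ t, HasDerivAt V (P t ^ N) t := fun t =>
    (hfc.integral_hasStrictDerivAt 0 t).hasDerivAt
  have hgd : ∀ x ∈ Ioo (0 : ℝ) X, HasDerivAt g (((N : ℝ) + 1) * (x / r x) ^ N) x := by
    intro x hx
    have hx' : x ∈ Ioc (0 : ℝ) X := ⟨hx.1, hx.2.le⟩
    have hne : P (W (x ^ (N + 1))) ^ N ≠ 0 := by
      have h1 : P (W (x ^ (N + 1))) = r x := hrP x ⟨hx.1.le, hx.2.le⟩
      rw [h1]
      exact (pow_pos (hrpos x hx') N).ne'
    have h1 : HasDerivAt W (P (W (x ^ (N + 1))) ^ N)⁻¹ (x ^ (N + 1)) :=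
      HasDerivAt.of_local_left_inverse hWc.continuousAt (hVd _) hne
        (Filter.Eventually.of_forall hVW')
    have hp : HasDerivAt (fun y : ℝ => y ^ (N + 1)) (((N + 1 : ℕ) : ℝ) * x ^ (N + 1 - 1)) x :=
      hasDerivAt_pow (N + 1) x
    have h2 : HasDerivAt g ((P (W (x ^ (N + 1))) ^ N)⁻¹ *
        (((N + 1 : ℕ) : ℝ) * x ^ (N + 1 - 1))) x :=
      HasDerivAt.comp (h₂ := W) (h := fun y : ℝ => y ^ (N + 1)) x h1 hp
    have h3 : P (W (x ^ (N + 1))) = r x := hrP x ⟨hx.1.le, hx.2.le⟩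
    have e : (P (W (x ^ (N + 1))) ^ N)⁻¹ * (((N + 1 : ℕ) : ℝ) * x ^ (N + 1 - 1)) =
        ((N : ℝ) + 1) * (x / r x) ^ N := by
      rw [h3, Nat.add_sub_cancel, div_pow]
      push_cast
      ring
    rw [← e]
    exact h2
  -- change of variables
  have hcv : ∀ φ : ℝ → ℝ, Continuous φ →
      ∫ t in (0 : ℝ)..h, φ t * P t ^ N = ∫ x in (0 : ℝ)..X, φ (g x) * (((N : ℝ) + 1) * x ^ N) := by
    intro φ hφ
    have hcφ : Continuous (fun t => φ t * P t ^ N) := hφ.mul hfc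
    have hΦd : ∀ t, HasDerivAt (fun t : ℝ => ∫ s in (0 : ℝ)..t, φ s * P s ^ N)
        (φ t * P t ^ N) t := fun t => (hcφ.integral_hasStrictDerivAt 0 t).hasDerivAt
    have hΦc : Continuous (fun t : ℝ => ∫ s in (0 : ℝ)..t, φ s * P s ^ N) :=
      intervalIntegral.continuous_primitive (fun a b => hcφ.intervalIntegrable a b) 0
    have h1 := intervalIntegral.integral_eq_sub_of_hasDerivAt_of_le
      (f := fun x => ∫ s in (0 : ℝ)..(g x), φ s * P s ^ N)
      (f' := fun x => φ (g x) * (((N : ℝ) + 1) * x ^ N)) hX0.le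
      (hΦc.comp hgc).continuousOn (fun x hx => by
        have h2 := (hΦd (g x)).comp x (hgd x hx)
        have h3 : P (g x) = r x := hrP x ⟨hx.1.le, hx.2.le⟩
        have h4 := hrpos x ⟨hx.1, hx.2.le⟩
        have e : φ (g x) * P (g x) ^ N * (((N : ℝ) + 1) * (x / r x) ^ N) =
            φ (g x) * (((N : ℝ) + 1) * x ^ N) := by
          rw [h3, div_pow]
          field_simp
        rw [← e]
        exact h2)
      (Continuous.intervalIntegrable ((hφ.comp hgc).mul (by fun_prop)) _ _)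
    rw [h1, hgX, hg0, intervalIntegral.integral_same, sub_zero]
  -- `Tx` is `g`
  have hT : ∀ x ∈ Icc (0 : ℝ) X, Tx N r x = g x := by
    intro x hx
    have hm : MonotoneOn (fun s => s / r s) (Icc 0 X) := by
      intro a ha b hb hab
      show a / r a ≤ b / r b
      rcases ha.1.eq_or_lt with h1 | h1
      · rw [← h1, zero_div]
        exact div_nonneg hb.1 (hr0 b hb)
      · have hb' : b ∈ Ioc (0 : ℝ) X := ⟨h1.trans_le hab, hb.2⟩
        rw [div_le_div_iff₀ (hrpos a ⟨h1, ha.2⟩) (hrpos b hb')]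
        have := hprof.anti a ⟨h1, ha.2⟩ b hb' hab
        linarith
    have hi : IntervalIntegrable (fun s => ((N : ℝ) + 1) * (s / r s) ^ N) volume 0 x := by
      apply MonotoneOn.intervalIntegrable
      rw [uIcc_of_le hx.1]
      intro a ha b hb hab
      have ha' : a ∈ Icc 0 X := ⟨ha.1, ha.2.trans hx.2⟩
      have hb' : b ∈ Icc 0 X := ⟨hb.1, hb.2.trans hx.2⟩
      refine mul_le_mul_of_nonneg_left ?_ (by positivity)
      exact pow_le_pow_left₀ (div_nonneg ha.1 (hr0 a ha')) (hm ha' hb' hab) N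
    have h1 := intervalIntegral.integral_eq_sub_of_hasDerivAt_of_le
      (f := g) (f' := fun s => ((N : ℝ) + 1) * (s / r s) ^ N) hx.1 hgc.continuousOn
      (fun s hs => hgd s ⟨hs.1, hs.2.trans_le hx.2⟩) hi
    unfold Tx
    rw [h1, hg0, sub_zero]
  refine ⟨X, r, hprof, ?_, ?_, ?_, ?_⟩
  · rw [hXV, hVeq h ⟨hh.le, le_rfl⟩]
  · have h1 := hcv (fun t => P t ^ 2) (hPc.pow 2)
    have h2 : ∫ t in (0 : ℝ)..h, ρ t ^ (N + 2) = ∫ t in (0 : ℝ)..h, P t ^ 2 * P t ^ N := by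
      refine intervalIntegral.integral_congr (fun t ht => ?_)
      rw [uIcc_of_le hh.le] at ht
      show ρ t ^ (N + 2) = P t ^ 2 * P t ^ N
      rw [hPeq t ht]
      ring
    rw [h2, h1]
    unfold Jx
    rw [← intervalIntegral.integral_const_mul]
    refine intervalIntegral.integral_congr (fun x hx => ?_)
    rw [uIcc_of_le hX0.le] at hx
    show P (g x) ^ 2 * (((N : ℝ) + 1) * x ^ N) = ((N : ℝ) + 1) * (r x ^ 2 * x ^ N)
    rw [hrP x hx]
    ring
  · have h1 := hcv (fun t => t) continuous_id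
    have h2 : ∫ t in (0 : ℝ)..h, t * ρ t ^ N = ∫ t in (0 : ℝ)..h, t * P t ^ N := by
      refine intervalIntegral.integral_congr (fun t ht => ?_)
      rw [uIcc_of_le hh.le] at ht
      show t * ρ t ^ N = t * P t ^ N
      rw [hPeq t ht]
    rw [h2, h1]
    refine intervalIntegral.integral_congr (fun x hx => ?_)
    rw [uIcc_of_le hX0.le] at hx
    show g x * (((N : ℝ) + 1) * x ^ N) = Tx N r x * (((N : ℝ) + 1) * x ^ N)
    rw [hT x hx]
  · have h1 := hcv (fun t => t ^ 2) (continuous_pow 2)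
    have h2 : ∫ t in (0 : ℝ)..h, t ^ 2 * ρ t ^ N = ∫ t in (0 : ℝ)..h, t ^ 2 * P t ^ N := by
      refine intervalIntegral.integral_congr (fun t ht => ?_)
      rw [uIcc_of_le hh.le] at ht
      show t ^ 2 * ρ t ^ N = t ^ 2 * P t ^ N
      rw [hPeq t ht]
    rw [h2, h1]
    refine intervalIntegral.integral_congr (fun x hx => ?_)
    rw [uIcc_of_le hX0.le] at hx
    show g x ^ 2 * (((N : ℝ) + 1) * x ^ N) = Tx N r x ^ 2 * (((N : ℝ) + 1) * x ^ N)
    rw [hT x hx]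

end Vale.Agent.P254U
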