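import Vale.Agent.Lib.P254U.RV.ShakeA

/-!
P254U/RV/ShakeB: the rearrangement preserves `∫ ρ^k` and increases the variance.

Layer cake: for `u ≥ 0`, `u^N = ∫_0^R N r^(N-1) 1_{r ≤ u} dr` (`R ≥ max ρ`), so by Tonelli
`∫_a^b ρ^N = ∫_0^R N r^(N-1) |{ρ ≥ r}| dr`, and `|{ρ ≥ r}| = |{shk ≥ r}|` (`level_interval`).
`shake_var`: `2 (A_2 A_0 - A_1^2) = ∬ (t - t')^2 ρ(t)^N ρ(t')^N dt dt'
 = ∬ N^2 (r r')^(N-1) (∫_{t ∈ I_r} ∫_{t' ∈ I_r'} (t - t')^2) dr dr'`, and for nested intervals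
`I_r' ⊆ I_r` of lengths `l' ≤ l` with midpoints at distance `d ≤ (l - l')/2` the inner integral is
`l l' ((l^2 + l'^2)/12 + d^2)`, at most its value `d = (l - l')/2` for the level sets
`[h - l, h]`, `[h - l', h]` of `shk`.
-/

open MeasureTheory Set

namespace Vale.Agent.P254U

variable {a b : ℝ} {ρ : ℝ → ℝ}

/-- moments of the level sets -/
noncomputable def shakeB_B (u : ℝ → ℝ) (c d : ℝ) (j : ℕ) (r : ℝ) : ℝ :=
  ∫ t in {t | t ∈ Icc c d ∧ r ≤ u t}, t ^ j

theorem shakeB_layer {u : ℝ → ℝ} {c d R : ℝ} (hcd : c ≤ d) (hu : ContinuousOn u (Icc c d))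
    (hnn : ∀ t ∈ Icc c d, 0 ≤ u t) (hR : ∀ t ∈ Icc c d, u t ≤ R) {N : ℕ} (hN : 1 ≤ N) (j : ℕ) :
    IntegrableOn (fun r : ℝ => ((N : ℝ) * r ^ (N - 1)) * shakeB_B u c d j r) (Ioc 0 R) ∧
      ∫ r in Ioc 0 R, ((N : ℝ) * r ^ (N - 1)) * shakeB_B u c d j r = Mj N u c d j := by
  set S : Set (ℝ × ℝ) := {p | p ∈ Icc c d ×ˢ (univ : Set ℝ) ∧ p.2 ≤ u p.1} with hS
  have hSc : IsClosed S := by
    refine IsClosed.isClosed_le (isClosed_Icc.prod isClosed_univ) continuous_snd.continuousOn ?_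
    exact hu.comp continuous_fst.continuousOn fun p hp => hp.1
  set f : ℝ × ℝ → ℝ := fun p => p.1 ^ j * ((N : ℝ) * p.2 ^ (N - 1)) with hf
  have hfc : Continuous f := by
    rw [hf]
    fun_prop
  set g : ℝ → ℝ → ℝ := fun t r => S.indicator f (t, r) with hg
  have hgi : Integrable (Function.uncurry g)
      ((volume.restrict (Icc c d)).prod (volume.restrict (Ioc 0 R))) := by
    have h1 : Function.uncurry g = S.indicator f := by
      funext p
      rfl
    rw [h1, Measure.prod_restrict]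
    refine Integrable.indicator ?_ hSc.measurableSet
    have h2 : IntegrableOn f (Icc c d ×ˢ Icc 0 R) ((volume : Measure ℝ).prod volume) :=
      hfc.continuousOn.integrableOn_compact (isCompact_Icc.prod isCompact_Icc)
    exact h2.mono_set (prod_mono le_rfl Ioc_subset_Icc_self)
  have hLm : ∀ r : ℝ, MeasurableSet {t | t ∈ Icc c d ∧ r ≤ u t} := fun r =>
    (IsClosed.isClosed_le isClosed_Icc continuousOn_const hu).measurableSet
  have e1 : ∀ r : ℝ, ∫ t in Icc c d, g t r = ((N : ℝ) * r ^ (N - 1)) * shakeB_B u c d j r := by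
    intro r
    have h1 : ∀ t : ℝ, g t r = {t | t ∈ Icc c d ∧ r ≤ u t}.indicator
        (fun t => t ^ j * ((N : ℝ) * r ^ (N - 1))) t := by
      intro t
      by_cases ht : t ∈ Icc c d ∧ r ≤ u t
      · have h2 : (t, r) ∈ S := ⟨⟨ht.1, mem_univ r⟩, ht.2⟩
        have h3 : t ∈ {t | t ∈ Icc c d ∧ r ≤ u t} := ht
        rw [hg]
        simp only
        rw [indicator_of_mem h2, indicator_of_mem h3]
      · have h2 : (t, r) ∉ S := fun h => ht ⟨h.1.1, h.2⟩
        have h3 : t ∉ {t | t ∈ Icc c d ∧ r ≤ u t} := ht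
        rw [hg]
        simp only
        rw [indicator_of_notMem h2, indicator_of_notMem h3]
    simp only [h1]
    rw [setIntegral_indicator (hLm r), inter_eq_right.2 (fun t ht => ht.1), integral_mul_const,
      mul_comm]
    rfl
  have e2 : ∀ t ∈ Icc c d, ∫ r in Ioc 0 R, g t r = t ^ j * u t ^ N := by
    intro t ht
    have h1 : ∀ r : ℝ, g t r = (Iic (u t)).indicator
        (fun r => t ^ j * ((N : ℝ) * r ^ (N - 1))) r := by
      intro r
      by_cases hr : r ≤ u t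
      · have h2 : (t, r) ∈ S := ⟨⟨ht, mem_univ r⟩, hr⟩
        have h3 : r ∈ Iic (u t) := hr
        rw [hg]
        simp only
        rw [indicator_of_mem h2, indicator_of_mem h3]
      · have h2 : (t, r) ∉ S := fun h => hr h.2
        have h3 : r ∉ Iic (u t) := hr
        rw [hg]
        simp only
        rw [indicator_of_notMem h2, indicator_of_notMem h3]
    simp only [h1]
    rw [setIntegral_indicator measurableSet_Iic]
    have h2 : Ioc 0 R ∩ Iic (u t) = Ioc 0 (u t) := by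
      ext r
      simp only [mem_inter_iff, mem_Ioc, mem_Iic]
      exact ⟨fun h => ⟨h.1.1, h.2⟩, fun h => ⟨⟨h.1, h.2.trans (hR t ht)⟩, h.2⟩⟩
    rw [h2, ← intervalIntegral.integral_of_le (hnn t ht), intervalIntegral.integral_const_mul,
      intervalIntegral.integral_const_mul, integral_pow]
    obtain ⟨n, rfl⟩ : ∃ n, N = n + 1 := ⟨N - 1, by omega⟩
    simp only [Nat.add_sub_cancel]
    have h3 : ((n : ℝ) + 1) ≠ 0 := by positivity
    rw [zero_pow (Nat.succ_ne_zero n)]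
    push_cast
    field_simp
    ring
  have h1 := integral_integral_swap hgi
  have h2 := hgi.integral_prod_right
  refine ⟨?_, ?_⟩
  · unfold IntegrableOn
    refine h2.congr (Filter.Eventually.of_forall fun r => ?_)
    exact e1 r
  · rw [setIntegral_congr_fun measurableSet_Icc e2] at h1
    simp only [e1] at h1
    rw [← h1]
    unfold Mj
    rw [intervalIntegral.integral_of_le hcd, integral_Icc_eq_integral_Ioc]

theorem shakeB_Icc {u : ℝ → ℝ} {c d r α β : ℝ} (j : ℕ) (hαβ : α ≤ β)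
    (h : {t | t ∈ Icc c d ∧ r ≤ u t} = Icc α β) :
    shakeB_B u c d j r = (β ^ (j + 1) - α ^ (j + 1)) / (j + 1) := by
  unfold shakeB_B
  rw [h, integral_Icc_eq_integral_Ioc, ← intervalIntegral.integral_of_le hαβ, integral_pow]

/-- the level sets for one value -/
theorem shakeB_level (hab : a < b) (hc : ContinuousOn ρ (Icc a b))
    (hconc : ConcaveOn ℝ (Icc a b) ρ) (r : ℝ) :
    ((∀ j, shakeB_B ρ a b j r = 0) ∧ ∀ j, shakeB_B (shk ρ a b) 0 (b - a) j r = 0) ∨
    ∃ α β : ℝ, α ≤ β ∧ {t | t ∈ Icc a b ∧ r ≤ ρ t} = Icc α β ∧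
      (∀ j, shakeB_B ρ a b j r = (β ^ (j + 1) - α ^ (j + 1)) / (j + 1)) ∧
      ∀ j, shakeB_B (shk ρ a b) 0 (b - a) j r =
        ((b - a) ^ (j + 1) - ((b - a) - (β - α)) ^ (j + 1)) / (j + 1) := by
  by_cases hr : ∃ t ∈ Icc a b, r ≤ ρ t
  · right
    obtain ⟨α, β, _, h2, _, h4, h5⟩ := level_interval hab hc hconc hr
    exact ⟨α, β, h2, h4, fun j => shakeB_Icc j h2 h4, fun j => shakeB_Icc j (by linarith) h5⟩
  · left
    push Not at hr
    have e1 : {t | t ∈ Icc a b ∧ r ≤ ρ t} = ∅ := by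
      ext t
      simp only [mem_ofPred_eq, mem_empty_iff_false, iff_false, not_and, not_le]
      exact hr t
    have e2 : {t | t ∈ Icc (0 : ℝ) (b - a) ∧ r ≤ shk ρ a b t} = ∅ := by
      ext t
      simp only [mem_ofPred_eq, mem_empty_iff_false, iff_false, not_and, not_le]
      intro ht
      by_contra hcon
      push Not at hcon
      obtain ⟨s, hs, h1, _⟩ := (shk_level hab hc ht r).1 hcon
      have h2 := hr s ⟨hs.1, hs.2.trans (by linarith [ht.2])⟩
      linarith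
    refine ⟨fun j => ?_, fun j => ?_⟩
    · unfold shakeB_B
      rw [e1, Measure.restrict_empty, integral_zero_measure]
    · unfold shakeB_B
      rw [e2, Measure.restrict_empty, integral_zero_measure]

theorem shakeB_bound (hab : a < b) (hc : ContinuousOn ρ (Icc a b)) :
    ∃ R : ℝ, (∀ t ∈ Icc a b, ρ t ≤ R) ∧ ∀ t ∈ Icc (0 : ℝ) (b - a), shk ρ a b t ≤ R := by
  obtain ⟨R, hR⟩ := isCompact_Icc.bddAbove_image hc
  have h1 : ∀ t ∈ Icc a b, ρ t ≤ R := fun t ht => hR (mem_image_of_mem ρ ht)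
  refine ⟨R, h1, fun t ht => ?_⟩
  obtain ⟨s, hs, h2, _⟩ := (shk_level hab hc ht (shk ρ a b t)).1 le_rfl
  exact h2.trans (h1 s ⟨hs.1, hs.2.trans (by linarith [ht.2])⟩)

theorem shakeB_zero (hab : a < b) (hc : ContinuousOn ρ (Icc a b))
    (hconc : ConcaveOn ℝ (Icc a b) ρ) (r : ℝ) :
    shakeB_B ρ a b 0 r = shakeB_B (shk ρ a b) 0 (b - a) 0 r := by
  rcases shakeB_level hab hc hconc r with ⟨h1, h2⟩ | ⟨α, β, _, _, h1, h2⟩
  · rw [h1, h2]
  · rw [h1, h2]
    ring

/-- the inequality for two levels -/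
theorem shakeB_pair (hab : a < b) (hc : ContinuousOn ρ (Icc a b))
    (hconc : ConcaveOn ℝ (Icc a b) ρ) (r r' : ℝ) :
    shakeB_B ρ a b 2 r * shakeB_B ρ a b 0 r' + shakeB_B ρ a b 0 r * shakeB_B ρ a b 2 r' -
        2 * (shakeB_B ρ a b 1 r * shakeB_B ρ a b 1 r') ≤
      shakeB_B (shk ρ a b) 0 (b - a) 2 r * shakeB_B (shk ρ a b) 0 (b - a) 0 r' +
        shakeB_B (shk ρ a b) 0 (b - a) 0 r * shakeB_B (shk ρ a b) 0 (b - a) 2 r' -
        2 * (shakeB_B (shk ρ a b) 0 (b - a) 1 r * shakeB_B (shk ρ a b) 0 (b - a) 1 r') := by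
  rcases shakeB_level hab hc hconc r with ⟨h1, h2⟩ | ⟨α, β, h0, hI, h1, h2⟩
  · simp only [h1, h2]
    linarith
  rcases shakeB_level hab hc hconc r' with ⟨h1', h2'⟩ | ⟨α', β', h0', hI', h1', h2'⟩
  · simp only [h1', h2']
    linarith
  have key : 0 ≤ (β - α) * (β' - α') * ((β - β') * (α' - α)) := by
    have h3 : 0 ≤ (β - β') * (α' - α) := by
      rcases le_total r r' with hrr | hrr
      · have hsub : Icc α' β' ⊆ Icc α β := by
          rw [← hI, ← hI']
          exact fun t ht => ⟨ht.1, hrr.trans ht.2⟩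
        have := (Icc_subset_Icc_iff h0').1 hsub
        exact mul_nonneg (by linarith [this.2]) (by linarith [this.1])
      · have hsub : Icc α β ⊆ Icc α' β' := by
          rw [← hI, ← hI']
          exact fun t ht => ⟨ht.1, hrr.trans ht.2⟩
        have := (Icc_subset_Icc_iff h0).1 hsub
        exact mul_nonneg_of_nonpos_of_nonpos (by linarith [this.2]) (by linarith [this.1])
    exact mul_nonneg (mul_nonneg (by linarith) (by linarith)) h3
  simp only [h1, h2, h1', h2']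
  push_cast
  nlinarith [key]

theorem shake_pow (hab : a < b) (hc : ContinuousOn ρ (Icc a b))
    (hconc : ConcaveOn ℝ (Icc a b) ρ) (hnn : ∀ t ∈ Icc a b, 0 ≤ ρ t) {N : ℕ} (hN : 1 ≤ N) :
    ∫ t in a..b, ρ t ^ N = ∫ t in (0 : ℝ)..(b - a), shk ρ a b t ^ N := by
  obtain ⟨R, hR, hR'⟩ := shakeB_bound hab hc
  have h1 := (shakeB_layer hab.le hc hnn hR hN 0).2
  have h2 := (shakeB_layer (sub_nonneg.2 hab.le) (shk_cont hab hc hconc) (shk_nonneg hab hc hnn)
    hR' hN 0).2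
  simp only [shakeB_zero hab hc hconc] at h1
  rw [h1] at h2
  simpa [Mj] using h2

theorem shake_var (hab : a < b) (hc : ContinuousOn ρ (Icc a b))
    (hconc : ConcaveOn ℝ (Icc a b) ρ) (hnn : ∀ t ∈ Icc a b, 0 ≤ ρ t) {N : ℕ} (hN : 1 ≤ N) :
    Mj N ρ a b 2 * Mj N ρ a b 0 - Mj N ρ a b 1 ^ 2 ≤
      Mj N (shk ρ a b) 0 (b - a) 2 * Mj N (shk ρ a b) 0 (b - a) 0 -
        Mj N (shk ρ a b) 0 (b - a) 1 ^ 2 := by
  obtain ⟨R, hR, hR'⟩ := shakeB_bound hab hc
  have hl := fun j => shakeB_layer hab.le hc hnn hR hN j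
  have hs := fun j => shakeB_layer (sub_nonneg.2 hab.le) (shk_cont hab hc hconc)
    (shk_nonneg hab hc hnn) hR' hN j
  set w : ℝ → ℝ := fun r => (N : ℝ) * r ^ (N - 1) with hw
  have hw0 : ∀ r ∈ Ioc 0 R, 0 ≤ w r := fun r hr => by
    have := hr.1
    simp only [hw]
    positivity
  set B : ℕ → ℝ → ℝ := fun j r => shakeB_B ρ a b j r with hB
  set C : ℕ → ℝ → ℝ := fun j r => shakeB_B (shk ρ a b) 0 (b - a) j r with hC
  -- linear combinations
  have hlin : ∀ (D : ℕ → ℝ → ℝ) (m : ℕ → ℝ)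
      (_ : ∀ j, IntegrableOn (fun r => w r * D j r) (Ioc 0 R) ∧
        ∫ r in Ioc 0 R, w r * D j r = m j) (x y z : ℝ),
      IntegrableOn (fun r => w r * (D 2 r * x + D 0 r * y - 2 * (D 1 r * z))) (Ioc 0 R) ∧
      ∫ r in Ioc 0 R, w r * (D 2 r * x + D 0 r * y - 2 * (D 1 r * z)) =
        m 2 * x + m 0 * y - 2 * (m 1 * z) := by
    intro D m hD x y z
    have e : (fun r => w r * (D 2 r * x + D 0 r * y - 2 * (D 1 r * z))) =
        fun r => (w r * D 2 r) * x + (w r * D 0 r) * y - (w r * D 1 r) * (2 * z) := by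
      funext r
      ring
    have i2 := (hD 2).1.mul_const x
    have i0 := (hD 0).1.mul_const y
    have i1 := (hD 1).1.mul_const (2 * z)
    refine ⟨?_, ?_⟩
    · rw [e]
      exact (i2.add i0).sub i1
    · have s1 := integral_sub (i2.add i0) i1
      have s2 := integral_add i2 i0
      simp only [Pi.add_apply] at s1
      rw [e, s1, s2, integral_mul_const, integral_mul_const, integral_mul_const, (hD 2).2,
        (hD 1).2, (hD 0).2]
      ring
  have hBl := hlin B (fun j => Mj N ρ a b j) hl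
  have hCl := hlin C (fun j => Mj N (shk ρ a b) 0 (b - a) j) hs
  -- first integration
  have h1 : ∀ r', Mj N ρ a b 2 * B 0 r' + Mj N ρ a b 0 * B 2 r' - 2 * (Mj N ρ a b 1 * B 1 r') ≤
      Mj N (shk ρ a b) 0 (b - a) 2 * C 0 r' + Mj N (shk ρ a b) 0 (b - a) 0 * C 2 r' -
        2 * (Mj N (shk ρ a b) 0 (b - a) 1 * C 1 r') := by
    intro r'
    have hb := hBl (B 0 r') (B 2 r') (B 1 r')
    have hc' := hCl (C 0 r') (C 2 r') (C 1 r')
    rw [← hb.2, ← hc'.2]
    refine setIntegral_mono_on hb.1 hc'.1 measurableSet_Ioc fun r hr => ?_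
    exact mul_le_mul_of_nonneg_left (shakeB_pair hab hc hconc r r') (hw0 r hr)
  -- second integration
  have hb := hBl (Mj N ρ a b 0) (Mj N ρ a b 2) (Mj N ρ a b 1)
  have hc' := hCl (Mj N (shk ρ a b) 0 (b - a) 0) (Mj N (shk ρ a b) 0 (b - a) 2)
    (Mj N (shk ρ a b) 0 (b - a) 1)
  have h2 := setIntegral_mono_on hb.1 hc'.1 measurableSet_Ioc fun r hr =>
    mul_le_mul_of_nonneg_left (by linarith [h1 r] :
      B 2 r * Mj N ρ a b 0 + B 0 r * Mj N ρ a b 2 - 2 * (B 1 r * Mj N ρ a b 1) ≤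
      C 2 r * Mj N (shk ρ a b) 0 (b - a) 0 + C 0 r * Mj N (shk ρ a b) 0 (b - a) 2 -
        2 * (C 1 r * Mj N (shk ρ a b) 0 (b - a) 1)) (hw0 r hr)
  rw [hb.2, hc'.2] at h2
  nlinarith [h2]

end Vale.Agent.P254U
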