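import Vale.Agent.Lib.P254U.RV.ProfMain
import Vale.Agent.Lib.P254U.RV.ShakeB

/-!
P254U/RV/One: the one-dimensional inequality for concave functions: `shake_pow`, `shake_var` and
`prof_main` for `shk ρ a b` on `[0, b-a]`.
-/

open MeasureTheory Set

namespace Vale.Agent.P254U

theorem rv_one {N : ℕ} (hN : 1 ≤ N) {a b : ℝ} (hab : a < b) {ρ : ℝ → ℝ}
    (hc : ContinuousOn ρ (Icc a b)) (hconc : ConcaveOn ℝ (Icc a b) ρ)
    (hnn : ∀ t ∈ Icc a b, 0 ≤ ρ t) (hp : ∃ t ∈ Icc a b, 0 < ρ t) :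
    ((N : ℝ) + 2) ^ 2 * ((N : ℝ) + 3) ^ (N + 1) *
        ((Mj N ρ a b 2 * Mj N ρ a b 0 - Mj N ρ a b 1 ^ 2) *
          (∫ t in a..b, ρ t ^ (N + 2)) ^ N) ≤
      ((N : ℝ) + 1) ^ (N + 3) * Mj N ρ a b 0 ^ (N + 4) := by
  have hba : (0 : ℝ) < b - a := by linarith
  have hnn' := shk_nonneg hab hc hnn
  have hmain := prof_main hN hba (shk_cont hab hc hconc) (shk_concave hab hc hconc)
    (shk_mono hab hc hconc) (hnn' 0 ⟨le_rfl, hba.le⟩) (shk_pos hab hc hconc hnn hp)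
  have h0 : Mj N ρ a b 0 = Mj N (shk ρ a b) 0 (b - a) 0 := by
    unfold Mj
    simp only [pow_zero, one_mul]
    exact shake_pow hab hc hconc hnn hN
  have hD : ∫ t in a..b, ρ t ^ (N + 2) = ∫ t in (0 : ℝ)..(b - a), shk ρ a b t ^ (N + 2) :=
    shake_pow hab hc hconc hnn (by omega)
  have hD0 : 0 ≤ ∫ t in (0 : ℝ)..(b - a), shk ρ a b t ^ (N + 2) := by
    apply intervalIntegral.integral_nonneg hba.le
    intro t ht
    exact pow_nonneg (hnn' t ht) _
  have hV := shake_var hab hc hconc hnn hN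
  rw [h0, hD] at *
  refine le_trans ?_ hmain
  refine mul_le_mul_of_nonneg_left ?_ (by positivity)
  exact mul_le_mul_of_nonneg_right hV (pow_nonneg hD0 _)

end Vale.Agent.P254U
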