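import Vale.Agent.Lib.P254U.RV.Bds
import Vale.Agent.Lib.P254U.RV.Bar

/-!
P254U/RV/PP: the first differential inequality.

Let `κ = N(N+1)/(3N+2)`, `g x = (r x / x)^2`,
`K x = (N+2) Ex x * g^N + κ (N+3) Jx x / (x g) - (1+κ) x^(N+2)`.  Apply `barrier`.
`h0`: the first two terms are between `0` and `x^(N+2)`, `κ (N+3)/(N+1) x^(N+2)` (`Ex_le`, `Jx_le`).
`hs`: fix `x` with `K x > 0`, `G = g x`.  For `z > x` close to `x`, `g z ∈ [G (x/z)^2, G]` (`Prof`);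
`g ↦ (N+2) Ex z * g^N + κ (N+3) Jx z / (z g)` is convex, so `K z ≤ max (P0 z) (P2 z)` with
`P0 z = (N+2) Ex z * G^N + κ (N+3) Jx z / (z G) - (1+κ) z^(N+2)`,
`P2 z = (N+2) Ex z * G^N (x/z)^(2N) + κ (N+3) Jx z * z / (x^2 G) - (1+κ) z^(N+2)`.
`P0 x = P2 x = K x`, and with `ε = (N+2) Ex x G^N / x^(N+2)`, `β = (N+3) Jx x / (x^(N+3) G)`,
`b = β - 1 ∈ [0, 2/(N+1)]` (`Jx_ge`, `Jx_le`), using `Ex_deriv`, `Jx_deriv`:
`P0' x / x^(N+1) = (N+2) + κ (N+3) - κ β - (1+κ)(N+2) = - κ b ≤ 0`,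
`P2' x / x^(N+1) = (N+2) - 2Nε + κ(N+3) + κ β - (1+κ)(N+2) = κ - 2 N ε + κ β`,
and `K x > 0` means `ε > 1 - κ b`, so `P2' x / x^(N+1) ≤ 2κ - 2N + (2N+1) κ b ≤ 0`
(equality for `b = 2/(N+1)`).  So `K z ≤ K x + δ (z - x)` for `z > x` close to `x`.
-/

open MeasureTheory Set

namespace Vale.Agent.P254U

variable {N : ℕ} {X : ℝ} {r : ℝ → ℝ}

noncomputable def kapN (N : ℕ) : ℝ := (N : ℝ) * ((N : ℝ) + 1) / (3 * (N : ℝ) + 2)

theorem PP_kap_nonneg (N : ℕ) : 0 ≤ kapN N := by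
  unfold kapN
  positivity

theorem PP_kap_mul (N : ℕ) : kapN N * (3 * (N : ℝ) + 2) = N * ((N : ℝ) + 1) := by
  unfold kapN
  have h : (3 * (N : ℝ) + 2) ≠ 0 := by positivity
  field_simp

noncomputable def PP_K (N : ℕ) (r : ℝ → ℝ) (z : ℝ) : ℝ :=
  ((N : ℝ) + 2) * Ex N r z * (r z / z) ^ (2 * N) +
      kapN N * ((N : ℝ) + 3) * Jx N r z * z / r z ^ 2 - (1 + kapN N) * z ^ (N + 2)

theorem PP_convex (n : ℕ) {A B G1 G2 g : ℝ} (hA : 0 ≤ A) (hB : 0 ≤ B) (h1 : 0 < G1)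
    (hg1 : G1 ≤ g) (hg2 : g ≤ G2) :
    A * g ^ n + B * g⁻¹ ≤ max (A * G1 ^ n + B * G1⁻¹) (A * G2 ^ n + B * G2⁻¹) := by
  have hc1 : ConvexOn ℝ (Ioi (0 : ℝ)) (fun x : ℝ => x ^ n) :=
    (convexOn_pow n).subset Ioi_subset_Ici_self (convex_Ioi 0)
  have hc2 : ConvexOn ℝ (Ioi (0 : ℝ)) (fun x : ℝ => x⁻¹) := by
    have := convexOn_zpow (𝕜 := ℝ) (-1)
    simpa using this
  have hc : ConvexOn ℝ (Ioi (0 : ℝ)) (fun x : ℝ => A * x ^ n + B * x⁻¹) := by
    exact (hc1.smul hA).add (hc2.smul hB)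
  exact hc.le_max_of_mem_Icc (show G1 ∈ Ioi (0 : ℝ) from h1)
    (show G2 ∈ Ioi (0 : ℝ) from lt_of_lt_of_le h1 (hg1.trans hg2)) ⟨hg1, hg2⟩

theorem PP_cont (h : Prof X r) : ContinuousOn (PP_K N r) (Ioc 0 X) := by
  have hr : ContinuousOn r (Ioc 0 X) := h.cont
  have hE : ContinuousOn (Ex N r) (Ioc 0 X) := (Ex_cont h).mono Ioc_subset_Icc_self
  have hJ : ContinuousOn (Jx N r) (Ioc 0 X) := (Jx_cont h).mono Ioc_subset_Icc_self
  have hz : ∀ z ∈ Ioc (0 : ℝ) X, z ≠ 0 := fun z hz => hz.1.ne'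
  have hr0 : ∀ z ∈ Ioc (0 : ℝ) X, r z ^ 2 ≠ 0 := fun z hz => pow_ne_zero 2 (h.pos z hz).ne'
  unfold PP_K
  refine ContinuousOn.sub (ContinuousOn.add ?_ ?_) ?_
  · exact (continuousOn_const.mul hE).mul ((hr.div continuousOn_id hz).pow _)
  · exact ((continuousOn_const.mul hJ).mul continuousOn_id).div (hr.pow 2) hr0
  · exact continuousOn_const.mul (continuousOn_id.pow _)

theorem PP_zero (h : Prof X r) :
    Filter.Tendsto (PP_K N r) (nhdsWithin 0 (Ioi 0)) (nhds 0) := by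
  have hk := PP_kap_nonneg N
  have hmem : ∀ᶠ z in nhdsWithin (0 : ℝ) (Ioi 0), z ∈ Ioc (0 : ℝ) X := Ioc_mem_nhdsGT h.X_pos
  have hlim : ∀ c : ℝ, Filter.Tendsto (fun z : ℝ => c * z ^ (N + 2)) (nhdsWithin 0 (Ioi 0)) (nhds 0) := by
    intro c
    have h1 : Continuous (fun z : ℝ => c * z ^ (N + 2)) := by fun_prop
    have h2 := (h1.tendsto 0).mono_left (nhdsWithin_le_nhds (s := Ioi (0 : ℝ)))
    simpa using h2
  refine tendsto_of_tendsto_of_tendsto_of_le_of_le' (hlim (-(1 + kapN N))) (hlim (1 + 3 * kapN N)) ?_ ?_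
  · filter_upwards [hmem] with z hz
    have h1 := Ex_pos (N := N) h hz
    have h2 := Jx_pos (N := N) h hz
    have h3 := h.pos z hz
    have h4 := hz.1
    have h5 : 0 ≤ ((N : ℝ) + 2) * Ex N r z * (r z / z) ^ (2 * N) := by positivity
    have h6 : 0 ≤ kapN N * ((N : ℝ) + 3) * Jx N r z * z / r z ^ 2 := by positivity
    unfold PP_K
    linarith
  · filter_upwards [hmem] with z hz
    have h1 := Ex_le (N := N) h hz
    have h2 := Jx_le (N := N) h hz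
    have h2' := Jx_pos (N := N) h hz
    have h3 := h.pos z hz
    have h4 := hz.1
    have hN0 : (0 : ℝ) ≤ N := Nat.cast_nonneg N
    have h5 : kapN N * ((N : ℝ) + 3) * Jx N r z * z / r z ^ 2 ≤ 3 * kapN N * z ^ (N + 2) := by
      rw [div_le_iff₀ (by positivity)]
      have h6 : ((N : ℝ) + 3) * Jx N r z ≤ 3 * (r z ^ 2 * z ^ (N + 1)) := by nlinarith
      have h7 : kapN N * z * (((N : ℝ) + 3) * Jx N r z) ≤
          kapN N * z * (3 * (r z ^ 2 * z ^ (N + 1))) :=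
        mul_le_mul_of_nonneg_left h6 (by positivity)
      calc kapN N * ((N : ℝ) + 3) * Jx N r z * z = kapN N * z * (((N : ℝ) + 3) * Jx N r z) := by ring
        _ ≤ _ := h7
        _ = 3 * kapN N * z ^ (N + 2) * r z ^ 2 := by ring
    have h8 : 0 < z ^ (N + 2) := by positivity
    unfold PP_K
    nlinarith

/-- a function with nonpositive derivative -/
theorem PP_slope {P : ℝ → ℝ} {x d δ : ℝ} (hP : HasDerivAt P d x) (hd : d ≤ 0) (hδ : 0 < δ) :
    ∀ᶠ z in nhdsWithin x (Ioi x), P z ≤ P x + δ * (z - x) := by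
  have h1 := (hP.hasDerivWithinAt (s := Ioi x)).limsup_slope_le' (by simp) (lt_of_le_of_lt hd hδ)
  filter_upwards [h1, self_mem_nhdsWithin] with z hz hxz
  have hxz' : 0 < z - x := sub_pos.2 hxz
  rw [slope_def_field, div_lt_iff₀ hxz'] at hz
  linarith

theorem PP_alg0 {k n y j : ℝ} (hk : 0 ≤ k) (h : y ≤ (n + 3) * j) :
    (n + 2) * y + k * (n + 3) * (y - j) - (1 + k) * ((n + 2) * y) ≤ 0 := by
  have h1 : k * y ≤ k * ((n + 3) * j) := mul_le_mul_of_nonneg_left h hk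
  linarith

theorem PP_alg2 {k n y j e : ℝ} (hkm : k * (3 * n + 2) = n * (n + 1))
    (hK : (1 + k) * y < (n + 2) * e + k * ((n + 3) * j)) (hj : (n + 1) * j ≤ y) (hn : 0 ≤ n)
    (hk : 0 ≤ k) :
    (n + 2) * (y - 2 * n * e) + k * (n + 3) * (y + j) - (1 + k) * ((n + 2) * y) ≤ 0 := by
  have h1 : (n + 1) * (2 * n) * ((1 + k) * y) ≤
      (n + 1) * (2 * n) * ((n + 2) * e + k * ((n + 3) * j)) :=
    mul_le_mul_of_nonneg_left hK.le (by positivity)
  have h2 : k * (2 * n + 1) * (n + 3) * ((n + 1) * j) ≤ k * (2 * n + 1) * (n + 3) * y :=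
    mul_le_mul_of_nonneg_left hj (by positivity)
  have h3 : y * (k * (3 * n + 2)) = y * (n * (n + 1)) := by rw [hkm]
  have h4 : (n + 1) *
      ((n + 2) * (y - 2 * n * e) + k * (n + 3) * (y + j) - (1 + k) * ((n + 2) * y)) ≤ 0 := by
    linarith
  by_contra h5
  have h6 := mul_pos (show 0 < n + 1 by linarith) (not_le.1 h5)
  linarith

theorem PP_max (h : Prof X r) {x z : ℝ} (hx : x ∈ Ioc (0 : ℝ) X) (hz : z ∈ Ioc (0 : ℝ) X)
    (hxz : x ≤ z) :
    PP_K N r z ≤ max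
      (((N : ℝ) + 2) * r x ^ (2 * N) * (Ex N r z / z ^ (2 * N)) +
        kapN N * ((N : ℝ) + 3) / r x ^ 2 * (Jx N r z * z) - (1 + kapN N) * z ^ (N + 2))
      (((N : ℝ) + 2) * (r x / x) ^ (2 * N) * Ex N r z +
        kapN N * ((N : ℝ) + 3) * (x ^ 2 / r x ^ 2) * (Jx N r z / z) - (1 + kapN N) * z ^ (N + 2)) := by
  have hk := PP_kap_nonneg N
  have h1 := Ex_pos (N := N) h hz
  have h2 := Jx_pos (N := N) h hz
  have h3 := h.pos z hz
  have h4 := h.pos x hx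
  have hx0 := hx.1
  have hz0 := hz.1
  have hmono := h.mono x hx z hz hxz
  have hanti := h.anti x hx z hz hxz
  have hA : 0 ≤ ((N : ℝ) + 2) * Ex N r z := by positivity
  have hB : 0 ≤ kapN N * ((N : ℝ) + 3) * (Jx N r z / z) := by positivity
  have hG1 : 0 < (r x / z) ^ 2 := by positivity
  have hg1 : (r x / z) ^ 2 ≤ (r z / z) ^ 2 := by gcongr
  have hg2 : (r z / z) ^ 2 ≤ (r x / x) ^ 2 := by
    have : r z / z ≤ r x / x := by
      rw [div_le_div_iff₀ hz0 hx0]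
      exact hanti
    gcongr
  have hmain := PP_convex N hA hB hG1 hg1 hg2
  have e1 : PP_K N r z = (((N : ℝ) + 2) * Ex N r z * ((r z / z) ^ 2) ^ N +
      kapN N * ((N : ℝ) + 3) * (Jx N r z / z) * ((r z / z) ^ 2)⁻¹) - (1 + kapN N) * z ^ (N + 2) := by
    unfold PP_K
    rw [← pow_mul]
    congr 2
    field_simp
  have e2 : ((N : ℝ) + 2) * r x ^ (2 * N) * (Ex N r z / z ^ (2 * N)) +
        kapN N * ((N : ℝ) + 3) / r x ^ 2 * (Jx N r z * z) =
      ((N : ℝ) + 2) * Ex N r z * ((r x / z) ^ 2) ^ N +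
      kapN N * ((N : ℝ) + 3) * (Jx N r z / z) * ((r x / z) ^ 2)⁻¹ := by
    rw [← pow_mul, div_pow]
    congr 1
    · ring
    · field_simp
  have e3 : ((N : ℝ) + 2) * (r x / x) ^ (2 * N) * Ex N r z +
        kapN N * ((N : ℝ) + 3) * (x ^ 2 / r x ^ 2) * (Jx N r z / z) =
      ((N : ℝ) + 2) * Ex N r z * ((r x / x) ^ 2) ^ N +
      kapN N * ((N : ℝ) + 3) * (Jx N r z / z) * ((r x / x) ^ 2)⁻¹ := by
    rw [← pow_mul]
    congr 1
    · ring
    · field_simp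
  rw [e1, e2, e3, max_sub_sub_right]
  linarith

theorem PP_slopes (h : Prof X r) {x : ℝ} (hx : x ∈ Ioo (0 : ℝ) X) (hN : 1 ≤ N)
    (hK : 0 < PP_K N r x) {δ : ℝ} (hδ : 0 < δ) :
    ∀ᶠ z in nhdsWithin x (Ioi x), PP_K N r z ≤ PP_K N r x + δ * (z - x) := by
  have hxc : x ∈ Ioc (0 : ℝ) X := ⟨hx.1, hx.2.le⟩
  have hk := PP_kap_nonneg N
  have hkm := PP_kap_mul N
  have hR := h.pos x hxc
  have hx0 := hx.1
  have hNr : (1 : ℝ) ≤ N := by exact_mod_cast hN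
  have hJge := Jx_ge (N := N) h hxc
  have hJle := Jx_le (N := N) h hxc
  have hdE := Ex_deriv (N := N) h hx
  have hdJ := Jx_deriv (N := N) h hx
  -- derivative of the second branch
  have hq : x ^ (2 * N - 1) * x = x ^ (2 * N) := pow_sub_one_mul (by omega) x
  have hRx : (r x / x) ^ (2 * N) * (x / r x) ^ (2 * N) = 1 := by
    rw [← mul_pow, div_mul_div_cancel₀ hx0.ne', div_self hR.ne', one_pow]
  have hD0 := (((hdE.const_mul (((N : ℝ) + 2) * (r x / x) ^ (2 * N))).add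
    ((hdJ.div (hasDerivAt_id x) hx0.ne').const_mul (kapN N * ((N : ℝ) + 3) * (x ^ 2 / r x ^ 2)))).sub
    ((hasDerivAt_pow (N + 2) x).const_mul (1 + kapN N)))
  have hD2 := (((hdE.div (hasDerivAt_pow (2 * N) x) (pow_pos hx0 _).ne').const_mul
      (((N : ℝ) + 2) * r x ^ (2 * N))).add
    ((hdJ.mul (hasDerivAt_id x)).const_mul (kapN N * ((N : ℝ) + 3) / r x ^ 2))).sub
    ((hasDerivAt_pow (N + 2) x).const_mul (1 + kapN N))
  have hj1 : x ^ (N + 1) ≤ ((N : ℝ) + 3) * (Jx N r x / r x ^ 2) := by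
    rw [← mul_div_assoc, le_div_iff₀ (by positivity)]
    linarith
  have hj2 : ((N : ℝ) + 1) * (Jx N r x / r x ^ 2) ≤ x ^ (N + 1) := by
    rw [← mul_div_assoc, div_le_iff₀ (by positivity)]
    linarith
  have hs0 := PP_slope hD0 (δ := δ) ?_ hδ
  · have hs2 := PP_slope hD2 (δ := δ) ?_ hδ
    · have hmem : ∀ᶠ z in nhdsWithin x (Ioi x), z ∈ Ioc x X := Ioc_mem_nhdsGT hx.2
      filter_upwards [hs0, hs2, hmem] with z h0 h2 hz
      have hm := PP_max (N := N) h hxc (⟨hx0.trans hz.1, hz.2⟩ : z ∈ Ioc (0 : ℝ) X) hz.1.le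
      refine hm.trans (max_le ?_ ?_)
      · refine le_trans h2 (le_of_eq ?_)
        congr 1
        unfold PP_K
        simp only [Pi.add_apply, Pi.sub_apply, Pi.mul_apply, Pi.div_apply, id_eq]
        rw [div_pow]
        field_simp
      · refine le_trans h0 (le_of_eq ?_)
        congr 1
        unfold PP_K
        simp only [Pi.add_apply, Pi.sub_apply, Pi.div_apply, id_eq]
        rw [div_pow]
        field_simp
    · have hE' : ((x / r x) ^ (2 * N) * x ^ (N + 1) * x ^ (2 * N) -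
          Ex N r x * (((2 * N : ℕ) : ℝ) * x ^ (2 * N - 1))) / (x ^ (2 * N)) ^ 2 * r x ^ (2 * N) =
          x ^ (N + 1) - 2 * N * (Ex N r x * (r x / x) ^ (2 * N) / x) := by
        have hR2 : (r x) ^ (2 * N) ≠ 0 := (pow_pos hR _).ne'
        have hx2 : x ^ (2 * N - 1) ≠ 0 := (pow_pos hx0 _).ne'
        rw [div_pow, div_pow, ← hq]
        push_cast
        field_simp
      have hJ' : (r x ^ 2 * x ^ N * x + Jx N r x * 1) / r x ^ 2 =
          x ^ (N + 1) + Jx N r x / r x ^ 2 := by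
        field_simp
        ring
      have hKx : (1 + kapN N) * x ^ (N + 1) < ((N : ℝ) + 2) * (Ex N r x * (r x / x) ^ (2 * N) / x) +
          kapN N * (((N : ℝ) + 3) * (Jx N r x / r x ^ 2)) := by
        have h1 : PP_K N r x = x * (((N : ℝ) + 2) * (Ex N r x * (r x / x) ^ (2 * N) / x) +
          kapN N * (((N : ℝ) + 3) * (Jx N r x / r x ^ 2)) - (1 + kapN N) * x ^ (N + 1)) := by
          unfold PP_K
          field_simp
          ring
        rw [h1] at hK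
        have := (pos_iff_pos_of_mul_pos hK).1 hx0
        linarith
      have e1 : ((N : ℝ) + 2) * r x ^ (2 * N) *
          (((x / r x) ^ (2 * N) * x ^ (N + 1) * x ^ (2 * N) -
            Ex N r x * (((2 * N : ℕ) : ℝ) * x ^ (2 * N - 1))) / (x ^ (2 * N)) ^ 2) =
          ((N : ℝ) + 2) * (((x / r x) ^ (2 * N) * x ^ (N + 1) * x ^ (2 * N) -
            Ex N r x * (((2 * N : ℕ) : ℝ) * x ^ (2 * N - 1))) / (x ^ (2 * N)) ^ 2 *
            r x ^ (2 * N)) := by ring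
      have e2 : kapN N * ((N : ℝ) + 3) / r x ^ 2 * (r x ^ 2 * x ^ N * id x + Jx N r x * 1) =
          kapN N * ((N : ℝ) + 3) * ((r x ^ 2 * x ^ N * x + Jx N r x * 1) / r x ^ 2) := by
        simp only [id_eq]
        ring
      rw [e1, e2, hE', hJ']
      have h6 := PP_alg2 hkm hKx hj2 (Nat.cast_nonneg N) hk
      have e3 : ((N + 2 : ℕ) : ℝ) * x ^ (N + 2 - 1) = ((N : ℝ) + 2) * x ^ (N + 1) := by
        rw [show N + 2 - 1 = N + 1 from rfl]
        push_cast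
        ring
      rw [e3]
      linarith
  · have hJ' : (r x ^ 2 * x ^ N * x - Jx N r x * 1) / x ^ 2 * (x ^ 2 / r x ^ 2) =
          x ^ (N + 1) - Jx N r x / r x ^ 2 := by
      field_simp
      ring
    have e1 : ((N : ℝ) + 2) * (r x / x) ^ (2 * N) * ((x / r x) ^ (2 * N) * x ^ (N + 1)) =
        ((N : ℝ) + 2) * x ^ (N + 1) * ((r x / x) ^ (2 * N) * (x / r x) ^ (2 * N)) := by ring
    have e2 : kapN N * ((N : ℝ) + 3) * (x ^ 2 / r x ^ 2) *
        ((r x ^ 2 * x ^ N * id x - Jx N r x * 1) / id x ^ 2) =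
        kapN N * ((N : ℝ) + 3) *
        ((r x ^ 2 * x ^ N * x - Jx N r x * 1) / x ^ 2 * (x ^ 2 / r x ^ 2)) := by
      simp only [id_eq]
      ring
    rw [e1, e2, hRx, hJ']
    have h6 := PP_alg0 (n := (N : ℝ)) hk hj1
    have e3 : ((N + 2 : ℕ) : ℝ) * x ^ (N + 2 - 1) = ((N : ℝ) + 2) * x ^ (N + 1) := by
      rw [show N + 2 - 1 = N + 1 from rfl]
      push_cast
      ring
    rw [e3]
    linarith

theorem prof_pp (hN : 1 ≤ N) (h : Prof X r) {x : ℝ} (hx : x ∈ Ioc (0 : ℝ) X) :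
    ((N : ℝ) + 2) * Ex N r x * (r x / x) ^ (2 * N) +
      kapN N * ((N : ℝ) + 3) * Jx N r x * x / r x ^ 2 ≤ (1 + kapN N) * x ^ (N + 2) := by
  have := barrier (PP_cont (N := N) h) (PP_zero h)
    (fun y hy hK δ hδ => PP_slopes h hy hN hK hδ) x hx
  unfold PP_K at this
  linarith

end Vale.Agent.P254U
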