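import Vale.Agent.Lib.P254U.RV.Defs

/-!
P254U/RV/Poin: a weighted Poincare inequality.  `T x = ∫_0^x θ`, `dm = (N+1) x^N dx` on `[0,X]`.

Proof by differentiating in `X` (both sides vanish for `X = 0`), three times.  With
`P = ∫ θ² s^(N+1)`, `R = ∫ θ² s^(N+2)`, `A = ∫ T² dm`, `B = ∫ T dm`,
`V = A - 2 T B + T² x^(N+1) = ∫ (T x - T s)² dm`:
`d/dx (RHS - LHS) = (N+1) x^N (x P - (N+1)/(N+2) R - V)`,
`d/dx (x P - (N+1)/(N+2) R - V) = P + θ² x^(N+2)/(N+2) - 2 θ (T x^(N+1) - B)`, and for fixed `c`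
`d/dy (P + c² y^(N+2)/(N+2) - 2 c (T y^(N+1) - B)) = (θ - c)² y^(N+1)`.
-/

open MeasureTheory Set

namespace Vale.Agent.P254U

theorem Poin_int {X M : ℝ} {φ : ℝ → ℝ} (hc : ContinuousOn φ (Ioc 0 X))
    (hb : ∀ s ∈ Ioc (0 : ℝ) X, |φ s| ≤ M) : IntegrableOn φ (Ioc 0 X) := by
  have hfin : IntegrableOn (fun _ : ℝ => M) (Ioc 0 X) := integrableOn_const (by simp)
  refine Integrable.mono' hfin (hc.aestronglyMeasurable measurableSet_Ioc) ?_
  refine (ae_restrict_iff' measurableSet_Ioc).2 (Filter.Eventually.of_forall fun s hs => ?_)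
  exact hb s hs

theorem Poin_prim {X M : ℝ} (hX : 0 < X) {φ : ℝ → ℝ} (hc : ContinuousOn φ (Ioc 0 X))
    (hb : ∀ s ∈ Ioc (0 : ℝ) X, |φ s| ≤ M) :
    ContinuousOn (fun x => ∫ s in (0 : ℝ)..x, φ s) (Icc 0 X) ∧
      ∀ x ∈ Ioo (0 : ℝ) X, HasDerivAt (fun x => ∫ s in (0 : ℝ)..x, φ s) (φ x) x := by
  have hint : IntegrableOn φ (Ioc 0 X) := Poin_int hc hb
  constructor
  · have h := intervalIntegral.continuousOn_primitive_interval (μ := volume) (f := φ) (a := 0)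
      (b := X) (by rwa [uIcc_of_le hX.le, integrableOn_Icc_iff_integrableOn_Ioc])
    rwa [uIcc_of_le hX.le] at h
  · intro x hx
    have hi : IntervalIntegrable φ volume 0 x := by
      rw [intervalIntegrable_iff_integrableOn_Ioc_of_le hx.1.le]
      exact hint.mono_set (Ioc_subset_Ioc_right hx.2.le)
    have hco : ContinuousOn φ (Ioo 0 X) := hc.mono Ioo_subset_Ioc_self
    exact intervalIntegral.integral_hasDerivAt_right hi
      (hco.stronglyMeasurableAtFilter isOpen_Ioo x hx) (hco.continuousAt (Ioo_mem_nhds hx.1 hx.2))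

theorem Poin_mono {X : ℝ} {F F' : ℝ → ℝ} (hF : ContinuousOn F (Icc 0 X))
    (hd : ∀ x ∈ Ioo (0 : ℝ) X, HasDerivAt F (F' x) x) (h' : ∀ x ∈ Ioo (0 : ℝ) X, 0 ≤ F' x)
    (h0 : F 0 = 0) {x : ℝ} (hx : x ∈ Icc (0 : ℝ) X) : 0 ≤ F x := by
  have hm : MonotoneOn F (Icc 0 X) := by
    refine monotoneOn_of_deriv_nonneg (convex_Icc 0 X) hF ?_ ?_
    · rw [interior_Icc]
      exact fun y hy => (hd y hy).differentiableAt.differentiableWithinAt
    · rw [interior_Icc]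
      intro y hy
      rw [(hd y hy).deriv]
      exact h' y hy
  have := hm ⟨le_rfl, hx.1.trans hx.2⟩ hx hx.1
  rwa [h0] at this

theorem poincare (N : ℕ) {X M : ℝ} (hX : 0 < X) {θ : ℝ → ℝ} (hc : ContinuousOn θ (Ioc 0 X))
    (hb : ∀ s ∈ Ioc (0 : ℝ) X, |θ s| ≤ M) :
    (∫ x in (0 : ℝ)..X, (∫ s in (0 : ℝ)..x, θ s) ^ 2 * (((N : ℝ) + 1) * x ^ N)) * X ^ (N + 1) -
        (∫ x in (0 : ℝ)..X, (∫ s in (0 : ℝ)..x, θ s) * (((N : ℝ) + 1) * x ^ N)) ^ 2 ≤
      ((N : ℝ) + 1) / ((N : ℝ) + 2) * X ^ (N + 1) *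
        ∫ s in (0 : ℝ)..X, θ s ^ 2 * (X * s ^ (N + 1) - s ^ (N + 2)) := by
  have hM : 0 ≤ M := (abs_nonneg _).trans (hb X ⟨hX, le_rfl⟩)
  have hpw : ∀ k : ℕ, ContinuousOn (fun s : ℝ => s ^ k) (Ioc 0 X) := fun k =>
    (continuous_pow k).continuousOn
  have hbp : ∀ k : ℕ, ∀ s ∈ Ioc (0 : ℝ) X, |θ s ^ 2 * s ^ k| ≤ M ^ 2 * X ^ k := by
    intro k s hs
    rw [abs_mul, abs_pow, abs_pow, abs_of_pos hs.1]
    exact mul_le_mul (pow_le_pow_left₀ (abs_nonneg _) (hb s hs) 2)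
      (pow_le_pow_left₀ hs.1.le hs.2 k) (by have := hs.1; positivity) (by positivity)
  obtain ⟨hTc, hTd⟩ := Poin_prim hX hc hb
  obtain ⟨hPc, hPd⟩ := Poin_prim hX (φ := fun s => θ s ^ 2 * s ^ (N + 1))
    ((hc.pow 2).mul (hpw (N + 1))) (hbp (N + 1))
  obtain ⟨hRc, hRd⟩ := Poin_prim hX (φ := fun s => θ s ^ 2 * s ^ (N + 2))
    ((hc.pow 2).mul (hpw (N + 2))) (hbp (N + 2))
  set T : ℝ → ℝ := fun x => ∫ s in (0 : ℝ)..x, θ s with hT
  set P : ℝ → ℝ := fun x => ∫ s in (0 : ℝ)..x, θ s ^ 2 * s ^ (N + 1) with hP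
  set R : ℝ → ℝ := fun x => ∫ s in (0 : ℝ)..x, θ s ^ 2 * s ^ (N + 2) with hR
  have hAcc : ContinuousOn (fun x => T x ^ 2 * (((N : ℝ) + 1) * x ^ N)) (Icc 0 X) :=
    (hTc.pow 2).mul (continuousOn_const.mul (continuous_pow N).continuousOn)
  have hBcc : ContinuousOn (fun x => T x * (((N : ℝ) + 1) * x ^ N)) (Icc 0 X) :=
    hTc.mul (continuousOn_const.mul (continuous_pow N).continuousOn)
  obtain ⟨MA, hMA⟩ := isCompact_Icc.exists_bound_of_continuousOn hAcc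
  obtain ⟨MB, hMB⟩ := isCompact_Icc.exists_bound_of_continuousOn hBcc
  obtain ⟨hAc, hAd⟩ := Poin_prim hX (hAcc.mono Ioc_subset_Icc_self)
    (fun s hs => hMA s (Ioc_subset_Icc_self hs))
  obtain ⟨hBc, hBd⟩ := Poin_prim hX (hBcc.mono Ioc_subset_Icc_self)
    (fun s hs => hMB s (Ioc_subset_Icc_self hs))
  set A : ℝ → ℝ := fun x => ∫ s in (0 : ℝ)..x, T s ^ 2 * (((N : ℝ) + 1) * s ^ N) with hA
  set B : ℝ → ℝ := fun x => ∫ s in (0 : ℝ)..x, T s * (((N : ℝ) + 1) * s ^ N) with hB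
  have hT0 : T 0 = 0 := by simp [hT]
  have hP0 : P 0 = 0 := by simp [hP]
  have hR0 : R 0 = 0 := by simp [hR]
  have hA0 : A 0 = 0 := by simp [hA]
  have hB0 : B 0 = 0 := by simp [hB]
  have hN2 : (N : ℝ) + 2 ≠ 0 := by positivity
  have hpd : ∀ (k : ℕ) (x : ℝ), HasDerivAt (fun y : ℝ => y ^ (k + 1)) (((k : ℝ) + 1) * x ^ k) x := by
    intro k x
    have := hasDerivAt_pow (k + 1) x
    simpa using this
  -- third level
  have h3 : ∀ c : ℝ, ∀ x ∈ Icc (0 : ℝ) X,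
      0 ≤ P x + c ^ 2 * x ^ (N + 2) / ((N : ℝ) + 2) - 2 * c * (T x * x ^ (N + 1) - B x) := by
    intro c x hx
    refine Poin_mono (F := fun y => P y + c ^ 2 * y ^ (N + 2) / ((N : ℝ) + 2)
      - 2 * c * (T y * y ^ (N + 1) - B y)) (F' := fun y => (θ y - c) ^ 2 * y ^ (N + 1))
      ?_ ?_ ?_ ?_ hx
    · exact (hPc.add (by fun_prop)).sub (continuousOn_const.mul
        ((hTc.mul (by fun_prop)).sub hBc))
    · intro y hy
      have d1 := (hPd y hy).add ((((hpd (N + 1) y).const_mul (c ^ 2)).div_const ((N : ℝ) + 2)))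
      have d2 := (((hTd y hy).mul (hpd N y)).sub (hBd y hy)).const_mul (2 * c)
      refine (d1.sub d2).congr_deriv ?_
      push_cast
      field_simp
      ring
    · intro y hy
      have := hy.1
      positivity
    · simp [hT0, hP0, hB0]
  -- second level
  have h2 : ∀ x ∈ Icc (0 : ℝ) X, 0 ≤ x * P x - ((N : ℝ) + 1) / ((N : ℝ) + 2) * R x
      - (A x - 2 * T x * B x + T x ^ 2 * x ^ (N + 1)) := by
    intro x hx
    refine Poin_mono (F := fun y => y * P y - ((N : ℝ) + 1) / ((N : ℝ) + 2) * R y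
      - (A y - 2 * T y * B y + T y ^ 2 * y ^ (N + 1)))
      (F' := fun y => P y + θ y ^ 2 * y ^ (N + 2) / ((N : ℝ) + 2)
        - 2 * θ y * (T y * y ^ (N + 1) - B y)) ?_ ?_ ?_ ?_ hx
    · exact ((continuousOn_id.mul hPc).sub (continuousOn_const.mul hRc)).sub
        ((hAc.sub ((continuousOn_const.mul hTc).mul hBc)).add ((hTc.pow 2).mul (by fun_prop)))
    · intro y hy
      have d1 := ((hasDerivAt_id y).mul (hPd y hy)).sub
        ((hRd y hy).const_mul (((N : ℝ) + 1) / ((N : ℝ) + 2)))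
      have d2 := ((hAd y hy).sub (((hTd y hy).const_mul 2).mul (hBd y hy))).add
        (((hTd y hy).pow 2).mul (hpd N y))
      refine (d1.sub d2).congr_deriv ?_
      simp only [id, Pi.pow_apply]
      field_simp
      ring
    · intro y hy
      exact h3 (θ y) y ⟨hy.1.le, hy.2.le⟩
    · simp [hT0, hP0, hB0, hR0, hA0]
  -- first level
  have h1 : 0 ≤ ((N : ℝ) + 1) / ((N : ℝ) + 2) * (X ^ (N + 2) * P X - X ^ (N + 1) * R X)
      - (X ^ (N + 1) * A X - B X ^ 2) := by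
    refine Poin_mono (X := X) (F := fun y => ((N : ℝ) + 1) / ((N : ℝ) + 2) *
      (y ^ (N + 2) * P y - y ^ (N + 1) * R y) - (y ^ (N + 1) * A y - B y ^ 2))
      (F' := fun y => ((N : ℝ) + 1) * y ^ N * (y * P y - ((N : ℝ) + 1) / ((N : ℝ) + 2) * R y
        - (A y - 2 * T y * B y + T y ^ 2 * y ^ (N + 1)))) ?_ ?_ ?_ ?_ ⟨hX.le, le_rfl⟩
    · refine (continuousOn_const.mul (ContinuousOn.sub ?_ ?_)).sub (ContinuousOn.sub ?_ ?_)
      · exact ContinuousOn.mul (by fun_prop) hPc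
      · exact ContinuousOn.mul (by fun_prop) hRc
      · exact ContinuousOn.mul (by fun_prop) hAc
      · exact hBc.pow 2
    · intro y hy
      have d1 := ((((hpd (N + 1) y).mul (hPd y hy)).sub ((hpd N y).mul (hRd y hy))).const_mul
        (((N : ℝ) + 1) / ((N : ℝ) + 2)))
      have d2 := ((hpd N y).mul (hAd y hy)).sub ((hBd y hy).pow 2)
      refine (d1.sub d2).congr_deriv ?_
      push_cast
      field_simp
      ring
    · intro y hy
      have h4 := h2 y ⟨hy.1.le, hy.2.le⟩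
      have := hy.1
      positivity
    · simp [hP0, hB0, hR0, hA0]
  have hi1 : IntervalIntegrable (fun s => θ s ^ 2 * s ^ (N + 1)) volume 0 X := by
    rw [intervalIntegrable_iff_integrableOn_Ioc_of_le hX.le]
    exact Poin_int ((hc.pow 2).mul (hpw (N + 1))) (hbp (N + 1))
  have hi2 : IntervalIntegrable (fun s => θ s ^ 2 * s ^ (N + 2)) volume 0 X := by
    rw [intervalIntegrable_iff_integrableOn_Ioc_of_le hX.le]
    exact Poin_int ((hc.pow 2).mul (hpw (N + 2))) (hbp (N + 2))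
  have hlast : ∫ s in (0 : ℝ)..X, θ s ^ 2 * (X * s ^ (N + 1) - s ^ (N + 2)) = X * P X - R X := by
    have e : ∀ s : ℝ, θ s ^ 2 * (X * s ^ (N + 1) - s ^ (N + 2))
        = X * (θ s ^ 2 * s ^ (N + 1)) - θ s ^ 2 * s ^ (N + 2) := fun s => by ring
    simp only [e]
    rw [intervalIntegral.integral_sub (hi1.const_mul X) hi2, intervalIntegral.integral_const_mul]
  rw [hlast]
  have e2 : ((N : ℝ) + 1) / ((N : ℝ) + 2) * X ^ (N + 1) * (X * P X - R X)
      = ((N : ℝ) + 1) / ((N : ℝ) + 2) * (X ^ (N + 2) * P X - X ^ (N + 1) * R X) := by ring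
  rw [e2]
  change A X * X ^ (N + 1) - B X ^ 2 ≤ _
  linarith

end Vale.Agent.P254U
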