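import Vale.Agent.Lib.P254U.RV.HH
import Vale.Agent.Lib.P254U.RV.Poin
import Vale.Agent.Lib.P254U.RV.Link

/-!
P254U/RV/ProfMain: the one-dimensional inequality for increasing concave functions.

`exists_prof`: `A_0 = X^(N+1)`, `D = (N+1) Jx X`, `A_1 = ∫ T dm`, `A_2 = ∫ T^2 dm`, `T = Tx N r`.
`poincare` with `θ s = (N+1)(s / r s)^N` (bounded by `(N+1)(X / r X)^N`):
`A_2 A_0 - A_1^2 ≤ (N+1)/(N+2) X^(N+1) (N+1)^2 Fx X`.  Then `prof_hh` at `x = X`: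
`(A_2 A_0 - A_1^2) D^N ≤ (N+1)^3/(N+2) X^(N+1) (N+1)^N Fx Jx^N
  ≤ (N+1)^(N+3)/((N+2)^2 (N+3)^(N+1)) X^(N+1) X^((N+3)(N+1))`, and
`X^(N+1) X^((N+3)(N+1)) = A_0^(N+4)`.
-/

open MeasureTheory Set

namespace Vale.Agent.P254U

theorem prof_main {N : ℕ} (hN : 1 ≤ N) {h : ℝ} (hh : 0 < h) {ρ : ℝ → ℝ}
    (hc : ContinuousOn ρ (Icc 0 h)) (hconc : ConcaveOn ℝ (Icc 0 h) ρ)
    (hmono : MonotoneOn ρ (Icc 0 h)) (h0 : 0 ≤ ρ 0) (hpos : ∀ t ∈ Ioc (0 : ℝ) h, 0 < ρ t) :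
    ((N : ℝ) + 2) ^ 2 * ((N : ℝ) + 3) ^ (N + 1) *
        ((Mj N ρ 0 h 2 * Mj N ρ 0 h 0 - Mj N ρ 0 h 1 ^ 2) *
          (∫ t in (0 : ℝ)..h, ρ t ^ (N + 2)) ^ N) ≤
      ((N : ℝ) + 1) ^ (N + 3) * Mj N ρ 0 h 0 ^ (N + 4) := by
  obtain ⟨X, r, hP, e0, eD, e1, e2⟩ := exists_prof hN hh hc hconc hmono h0 hpos
  have hX : 0 < X := hP.X_pos
  have hXm : X ∈ Ioc (0 : ℝ) X := ⟨hX, le_rfl⟩
  have m0 : Mj N ρ 0 h 0 = X ^ (N + 1) := by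
    unfold Mj
    simpa only [pow_zero, one_mul] using e0
  have m1 : Mj N ρ 0 h 1 = ∫ x in (0 : ℝ)..X, Tx N r x * (((N : ℝ) + 1) * x ^ N) := by
    unfold Mj
    simpa only [pow_one] using e1
  have m2 : Mj N ρ 0 h 2 = ∫ x in (0 : ℝ)..X, Tx N r x ^ 2 * (((N : ℝ) + 1) * x ^ N) := by
    unfold Mj
    exact e2
  -- the weight
  have hθc : ContinuousOn (fun s => ((N : ℝ) + 1) * (s / r s) ^ N) (Ioc 0 X) :=
    continuousOn_const.mul ((continuousOn_id.div hP.cont fun s hs => (hP.pos s hs).ne').pow N)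
  have hθb : ∀ s ∈ Ioc (0 : ℝ) X, |((N : ℝ) + 1) * (s / r s) ^ N| ≤
      ((N : ℝ) + 1) * (X / r X) ^ N := by
    intro s hs
    have hrs := hP.pos s hs
    have hrX := hP.pos X hXm
    have h1 : 0 ≤ s / r s := div_nonneg hs.1.le hrs.le
    rw [abs_of_nonneg (by positivity)]
    have h2 : s / r s ≤ X / r X := by
      rw [div_le_div_iff₀ hrs hrX]
      have := hP.anti s hs X hXm hs.2
      linarith
    gcongr
  have hp := poincare N hX hθc hθb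
  have hF : ∫ s in (0 : ℝ)..X, (((N : ℝ) + 1) * (s / r s) ^ N) ^ 2 * (X * s ^ (N + 1) - s ^ (N + 2))
      = ((N : ℝ) + 1) ^ 2 * Fx N r X := by
    unfold Fx
    rw [← intervalIntegral.integral_const_mul]
    congr 1
    ext s
    rw [mul_pow, ← pow_mul, mul_comm N 2]
    ring
  rw [hF] at hp
  have hQ : Mj N ρ 0 h 2 * Mj N ρ 0 h 0 - Mj N ρ 0 h 1 ^ 2 ≤
      ((N : ℝ) + 1) / ((N : ℝ) + 2) * X ^ (N + 1) * (((N : ℝ) + 1) ^ 2 * Fx N r X) := by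
    rw [m0, m1, m2]
    exact hp
  have hJ : 0 < Jx N r X := Jx_pos hP hXm
  have hH := prof_hh hN hP hXm
  rw [eD, m0] at *
  have hN2 : (0 : ℝ) < (N : ℝ) + 2 := by positivity
  calc ((N : ℝ) + 2) ^ 2 * ((N : ℝ) + 3) ^ (N + 1) *
        ((Mj N ρ 0 h 2 * X ^ (N + 1) - Mj N ρ 0 h 1 ^ 2) * (((N : ℝ) + 1) * Jx N r X) ^ N)
      ≤ ((N : ℝ) + 2) ^ 2 * ((N : ℝ) + 3) ^ (N + 1) *
        ((((N : ℝ) + 1) / ((N : ℝ) + 2) * X ^ (N + 1) * (((N : ℝ) + 1) ^ 2 * Fx N r X))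
          * (((N : ℝ) + 1) * Jx N r X) ^ N) := by gcongr
    _ = ((N : ℝ) + 1) ^ (N + 3) * X ^ (N + 1) *
        (((N : ℝ) + 2) * ((N : ℝ) + 3) ^ (N + 1) * Fx N r X * Jx N r X ^ N) := by
        rw [mul_pow]
        field_simp
        ring
    _ ≤ ((N : ℝ) + 1) ^ (N + 3) * X ^ (N + 1) * X ^ ((N + 3) * (N + 1)) := by gcongr
    _ = ((N : ℝ) + 1) ^ (N + 3) * (X ^ (N + 1)) ^ (N + 4) := by
        rw [mul_assoc, ← pow_add, ← pow_mul]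
        congr 2
        ring

end Vale.Agent.P254U
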