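import Vale.Agent.Lib.P254U.RV.One
import Vale.Agent.Lib.P254U.RV.BodyB
import Vale.Agent.Lib.P254U.Final
import Vale.Agent.Lib.P254U.ZP.Ball
import Vale.Agent.Lib.P254U.ZP.Bath

/-!
P254U/RV/Rev: assembly.  `revol_le`: `Revol.rat` and `rv_one` (`Mj N ρ a b 0 > 0`, `Rat L > 0`).
`eball_body`: `eball_compact`, convexity of `∑ x_i^2`, `0` is an interior point.
`rat_eball_lt`: the ball is unconditional, so `isoConst (eball n) < isoConst simplex` by
`iso_lt_uncond_of_two_le` (P254U/Final), i.e. `Rat < 1` (`isoConst_le_iff`, `isoConst_eq_iff` in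
FS/RatSum, FS/Closure).
`rat_bodyrev`: bodies of revolution: `L = eball N` (`cen = 0` by symmetry, see `cen_zero` in ZP/Bath),
`|y|^2 ≤ ρ(t)^2` iff `y ∈ ρ(t) • eball N`.
-/

open MeasureTheory Set

namespace Vale.Agent.P254U

variable {N : ℕ}

theorem revol_le {K : Set (Fin (N + 1) → ℝ)} {L : Set (Fin N → ℝ)} {ρ : ℝ → ℝ} {a b : ℝ}
    (h : Revol K L ρ a b) : Rat K ≤ Rat L := by
  have h1 := rv_one h.hN h.hab h.cont h.conc h.nonneg h.exists_pos
  have h2 := h.rat
  have hvK := convBody_vol_pos h.bodyK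
  have hvL := convBody_vol_pos h.bodyL
  have hM : 0 < Mj N ρ a b 0 := by
    have h3 := h.vol
    rw [h3] at hvK
    exact (mul_pos_iff_of_pos_left hvL).1 hvK
  have hX : 0 < ((N : ℝ) + 1) ^ (N + 3) * Mj N ρ a b 0 ^ (N + 4) := by positivity
  have hR := Rat_pos h.bodyL
  have h4 : Rat K * (((N : ℝ) + 1) ^ (N + 3) * Mj N ρ a b 0 ^ (N + 4)) ≤
      Rat L * (((N : ℝ) + 1) ^ (N + 3) * Mj N ρ a b 0 ^ (N + 4)) := by
    rw [h2]
    exact mul_le_mul_of_nonneg_left h1 hR.le
  exact le_of_mul_le_mul_right h4 hX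

theorem eball_body (hN : 1 ≤ N) : ConvBody N (eball N) := by
  have _ := hN
  refine ⟨eball_compact N, ?_, ?_⟩
  · intro x hx y hy s t hs ht hst
    have hx' : ∑ i, x i ^ 2 ≤ 1 := hx
    have hy' : ∑ i, y i ^ 2 ≤ 1 := hy
    change ∑ i, (s • x + t • y) i ^ 2 ≤ 1
    have h1 : ∀ i, (s • x + t • y) i ^ 2 ≤ s * x i ^ 2 + t * y i ^ 2 := by
      intro i
      simp only [Pi.add_apply, Pi.smul_apply, smul_eq_mul]
      have e : s * x i ^ 2 + t * y i ^ 2 - (s * x i + t * y i) ^ 2 =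
          s * t * (x i - y i) ^ 2 := by
        obtain rfl : t = 1 - s := by linarith
        ring
      have h2 : 0 ≤ s * t * (x i - y i) ^ 2 := by positivity
      linarith
    calc ∑ i, (s • x + t • y) i ^ 2 ≤ ∑ i, (s * x i ^ 2 + t * y i ^ 2) :=
          Finset.sum_le_sum fun i _ => h1 i
      _ = s * ∑ i, x i ^ 2 + t * ∑ i, y i ^ 2 := by
          rw [Finset.sum_add_distrib, ← Finset.mul_sum, ← Finset.mul_sum]
      _ ≤ s * 1 + t * 1 := by gcongr
      _ = 1 := by linarith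
  · refine ⟨0, ?_⟩
    rw [mem_interior]
    refine ⟨{x : Fin N → ℝ | ∑ i, x i ^ 2 < 1}, fun x (hx : ∑ i, x i ^ 2 < 1) => ?_, ?_, ?_⟩
    · exact (hx.le : ∑ i, x i ^ 2 ≤ 1)
    · exact isOpen_lt (by fun_prop) continuous_const
    · simp

theorem rat_eball_lt (hN : 2 ≤ N) : Rat (eball N) < 1 := by
  have hK : ConvBody N (eball N) := eball_body (by omega)
  have hu : Uncond (eball N) := by
    intro x hx ε hε
    change ∑ i, (ε i * x i) ^ 2 ≤ 1
    have h1 : ∀ i, (ε i * x i) ^ 2 = x i ^ 2 := by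
      intro i
      rcases hε i with h | h <;> rw [h] <;> ring
    simp only [h1]
    exact hx
  obtain ⟨b⟩ : Nonempty (AffineBasis (Fin (N + 1)) ℝ (Fin N → ℝ)) :=
    AffineBasis.exists_affineBasis_of_finiteDimensional (by simp)
  have h1 := iso_lt_uncond_of_two_le hN hK hu b.ind
  refine lt_of_le_of_ne ((isoConst_le_iff (by omega) hK b.ind).1 h1.le) fun h2 => ?_
  exact h1.ne ((isoConst_eq_iff (by omega) hK b.ind).2 h2)

theorem rat_bodyrev (hN : 2 ≤ N) {K : Set (Fin (N + 1) → ℝ)} (hK : ConvBody (N + 1) K)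
    {ρ : ℝ → ℝ} {a b : ℝ} (hab : a < b) (hc : ContinuousOn ρ (Icc a b))
    (hconc : ConcaveOn ℝ (Icc a b) ρ) (hnn : ∀ t ∈ Icc a b, 0 ≤ ρ t)
    (hmem : ∀ (t : ℝ) (y : Fin N → ℝ), (Fin.cons t y : Fin (N + 1) → ℝ) ∈ K ↔
      t ∈ Icc a b ∧ ∑ i, y i ^ 2 ≤ ρ t ^ 2) : Rat K < 1 := by
  have hB : ConvBody N (eball N) := eball_body (by omega)
  have hR : Revol K (eball N) ρ a b := by
    refine ⟨by omega, hK, hB, fun i => ?_, hab, hc, hconc, hnn, fun t y => ?_⟩
    · refine cen_zero hB (fun x hx => ?_) i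
      have hx' : ∑ i, x i ^ 2 ≤ 1 := hx
      change ∑ i, (-x) i ^ 2 ≤ 1
      simpa using hx'
    · rw [hmem]
      refine and_congr_right fun ht => ?_
      have hr := hnn t ht
      constructor
      · intro h
        rcases hr.eq_or_lt with h0 | h0
        · refine ⟨0, by simp [eball], ?_⟩
          rw [← h0] at h
          have h1 : ∑ i, y i ^ 2 = 0 :=
            le_antisymm (by simpa using h) (Finset.sum_nonneg fun i _ => sq_nonneg _)
          have h2 := (Finset.sum_eq_zero_iff_of_nonneg fun i _ => sq_nonneg (y i)).1 h1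
          funext i
          have h3 := h2 i (Finset.mem_univ i)
          simpa using pow_eq_zero_iff (n := 2) two_ne_zero |>.1 h3
        · refine ⟨(ρ t)⁻¹ • y, ?_, ?_⟩
          · change ∑ i, ((ρ t)⁻¹ • y) i ^ 2 ≤ 1
            have e : ∑ i, ((ρ t)⁻¹ • y) i ^ 2 = (∑ i, y i ^ 2) / ρ t ^ 2 := by
              rw [Finset.sum_div]
              refine Finset.sum_congr rfl fun i _ => ?_
              simp only [Pi.smul_apply, smul_eq_mul]
              field_simp
            rw [e, div_le_one (by positivity)]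
            exact h
          · rw [smul_smul, mul_inv_cancel₀ h0.ne', one_smul]
      · rintro ⟨z, hz, rfl⟩
        have hz' : ∑ i, z i ^ 2 ≤ 1 := hz
        calc ∑ i, (ρ t • z) i ^ 2 = ρ t ^ 2 * ∑ i, z i ^ 2 := by
              rw [Finset.mul_sum]
              refine Finset.sum_congr rfl fun i _ => ?_
              simp only [Pi.smul_apply, smul_eq_mul]
              ring
          _ ≤ ρ t ^ 2 * 1 := by gcongr
          _ = ρ t ^ 2 := mul_one _
  exact (revol_le hR).trans_lt (rat_eball_lt hN)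

end Vale.Agent.P254U
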