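import Vale.Agent.Lib.P254U.RV.Defs

/-!
P254U/RV/ShakeA: the increasing rearrangement of a concave function.

`ρ` continuous, concave, `≥ 0` on `[a,b]`, positive somewhere; `h = b - a`;
`shk ρ a b t = sup_{s ∈ [a, a+t]} min (ρ s) (ρ (s + h - t))` for `t ∈ [0,h]`.
Concavity: `(t,s) ↦ min (ρ s) (ρ (s+h-t))` is jointly concave on the convex set
`{(t,s) | 0 ≤ t ≤ h, a ≤ s ≤ a + t}` and partial suprema of concave functions are concave.
Monotone: if `s ∈ [a,a+t]`, `t ≤ t'`, the interval `[s, s+h-t]` contains an interval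
`[s', s'+h-t']`, `s' ∈ [a,a+t']`, and `ρ ≥ min` of the values at the ends on an interval.
Continuous: uniform continuity of `ρ` on `[a,b]` (or concavity + monotonicity + the end points).
Positive on `(0,h]`: `ρ > 0` on the open interval `(a,b)`.
`shk_level`: for `0 ≤ t ≤ h`, `r`: `r ≤ shk t` iff there is `s ∈ [a,a+t]` with `r ≤ ρ s`,
`r ≤ ρ (s+h-t)` (the supremum is attained).
`level_interval`: for every `r` with a point `ρ ≥ r`, `{t ∈ [a,b] : r ≤ ρ t} = [α, β]`, and then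
`{t ∈ [0,h] : r ≤ shk t} = [h - (β - α), h]`.
-/

open MeasureTheory Set

namespace Vale.Agent.P254U

noncomputable def shk (ρ : ℝ → ℝ) (a b t : ℝ) : ℝ :=
  sSup ((fun s => min (ρ s) (ρ (s + (b - a) - t))) '' Icc a (a + t))

variable {a b : ℝ} {ρ : ℝ → ℝ}

theorem shk_level (hab : a < b) (hc : ContinuousOn ρ (Icc a b)) {t : ℝ}
    (ht : t ∈ Icc (0 : ℝ) (b - a)) (r : ℝ) :
    r ≤ shk ρ a b t ↔ ∃ s ∈ Icc a (a + t), r ≤ ρ s ∧ r ≤ ρ (s + (b - a) - t) := by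
  obtain ⟨ht0, ht1⟩ := ht
  have hcont : ContinuousOn (fun s => min (ρ s) (ρ (s + (b - a) - t))) (Icc a (a + t)) := by
    refine continuous_min.comp_continuousOn ((hc.mono ?_).prodMk (hc.comp (by fun_prop) ?_))
    · rintro s ⟨h1, h2⟩
      exact ⟨h1, by linarith⟩
    · rintro s ⟨h1, h2⟩
      exact ⟨by linarith, by linarith⟩
  have hcomp : IsCompact ((fun s => min (ρ s) (ρ (s + (b - a) - t))) '' Icc a (a + t)) :=
    isCompact_Icc.image_of_continuousOn hcont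
  have hne : ((fun s => min (ρ s) (ρ (s + (b - a) - t))) '' Icc a (a + t)).Nonempty :=
    (nonempty_Icc.2 (by linarith)).image _
  constructor
  · intro h
    obtain ⟨s, hs, hs2⟩ := hcomp.sSup_mem hne
    have h2 : r ≤ min (ρ s) (ρ (s + (b - a) - t)) := by
      refine h.trans ?_
      unfold shk
      rw [← hs2]
    exact ⟨s, hs, le_min_iff.1 h2⟩
  · rintro ⟨s, hs, h1, h2⟩
    exact (le_min h1 h2).trans (le_csSup hcomp.bddAbove ⟨s, hs, rfl⟩)

theorem shk_concave (hab : a < b) (hc : ContinuousOn ρ (Icc a b))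
    (hconc : ConcaveOn ℝ (Icc a b) ρ) : ConcaveOn ℝ (Icc 0 (b - a)) (shk ρ a b) := by
  refine ⟨convex_Icc _ _, ?_⟩
  intro t1 ht1 t2 ht2 c d hc0 hd0 hcd
  have ht : c • t1 + d • t2 ∈ Icc (0 : ℝ) (b - a) := (convex_Icc _ _) ht1 ht2 hc0 hd0 hcd
  obtain ⟨s1, hs1, p1, q1⟩ := (shk_level hab hc ht1 (shk ρ a b t1)).1 le_rfl
  obtain ⟨s2, hs2, p2, q2⟩ := (shk_level hab hc ht2 (shk ρ a b t2)).1 le_rfl
  rw [shk_level hab hc ht]
  have hd1 : d = 1 - c := by linarith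
  simp only [smul_eq_mul] at ht ⊢
  have m1 : s1 ∈ Icc a b := ⟨hs1.1, by linarith [hs1.2, ht1.2]⟩
  have m2 : s2 ∈ Icc a b := ⟨hs2.1, by linarith [hs2.2, ht2.2]⟩
  have n1 : s1 + (b - a) - t1 ∈ Icc a b := ⟨by linarith [hs1.1, ht1.2], by linarith [hs1.2]⟩
  have n2 : s2 + (b - a) - t2 ∈ Icc a b := ⟨by linarith [hs2.1, ht2.2], by linarith [hs2.2]⟩
  refine ⟨c * s1 + d * s2, ⟨?_, ?_⟩, ?_, ?_⟩
  · have h1 := mul_le_mul_of_nonneg_left hs1.1 hc0
    have h2 := mul_le_mul_of_nonneg_left hs2.1 hd0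
    have h3 : c * a + d * a = a := by rw [← add_mul, hcd, one_mul]
    linarith
  · have h1 := mul_le_mul_of_nonneg_left hs1.2 hc0
    have h2 := mul_le_mul_of_nonneg_left hs2.2 hd0
    have h3 : c * a + d * a = a := by rw [← add_mul, hcd, one_mul]
    have h4 : c * (a + t1) + d * (a + t2) = (c * a + d * a) + (c * t1 + d * t2) := by ring
    linarith
  · have h := hconc.2 m1 m2 hc0 hd0 hcd
    simp only [smul_eq_mul] at h
    linarith [mul_le_mul_of_nonneg_left p1 hc0, mul_le_mul_of_nonneg_left p2 hd0]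
  · have h := hconc.2 n1 n2 hc0 hd0 hcd
    simp only [smul_eq_mul] at h
    have e : c * s1 + d * s2 + (b - a) - (c * t1 + d * t2) =
        c * (s1 + (b - a) - t1) + d * (s2 + (b - a) - t2) := by
      rw [hd1]
      ring
    rw [e]
    linarith [mul_le_mul_of_nonneg_left q1 hc0, mul_le_mul_of_nonneg_left q2 hd0]

theorem shk_mono (hab : a < b) (hc : ContinuousOn ρ (Icc a b))
    (hconc : ConcaveOn ℝ (Icc a b) ρ) : MonotoneOn (shk ρ a b) (Icc 0 (b - a)) := by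
  intro t ht t' ht' htt
  obtain ⟨s, hs, p, q⟩ := (shk_level hab hc ht (shk ρ a b t)).1 le_rfl
  rw [shk_level hab hc ht']
  have hcv := hconc.convex_ge (shk ρ a b t)
  have m1 : s ∈ {x | x ∈ Icc a b ∧ shk ρ a b t ≤ ρ x} :=
    ⟨⟨hs.1, by linarith [hs.2, ht.2]⟩, p⟩
  have n1 : s + (b - a) - t ∈ {x | x ∈ Icc a b ∧ shk ρ a b t ≤ ρ x} :=
    ⟨⟨by linarith [hs.1, ht.2], by linarith [hs.2]⟩, q⟩
  have h2 := hcv.ordConnected.out m1 n1
  refine ⟨s, ⟨hs.1, by linarith [hs.2]⟩, p, ?_⟩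
  exact (h2 ⟨by linarith [ht'.2], by linarith⟩ : s + (b - a) - t' ∈ _).2

theorem ShakeA_mod (hab : a < b) (hc : ContinuousOn ρ (Icc a b)) {ε δ : ℝ}
    (h : ∀ x ∈ Icc a b, ∀ y ∈ Icc a b, |x - y| < δ → ρ x - ε ≤ ρ y) {t t' : ℝ}
    (ht : t ∈ Icc (0 : ℝ) (b - a)) (ht' : t' ∈ Icc (0 : ℝ) (b - a)) (htt : t ≤ t')
    (hd : t' - t < δ) : shk ρ a b t' - ε ≤ shk ρ a b t := by
  obtain ⟨s, hs, p, q⟩ := (shk_level hab hc ht' (shk ρ a b t')).1 le_rfl
  rw [shk_level hab hc ht]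
  have h1 : a ≤ max a (s - (t' - t)) := le_max_left _ _
  have h2 : s - (t' - t) ≤ max a (s - (t' - t)) := le_max_right _ _
  have h3 : max a (s - (t' - t)) ≤ s := max_le hs.1 (by linarith)
  have h4 : max a (s - (t' - t)) ≤ a + t := max_le (by linarith [ht.1]) (by linarith [hs.2])
  obtain ⟨u, hu⟩ : ∃ u, u = max a (s - (t' - t)) := ⟨_, rfl⟩
  rw [← hu] at h1 h2 h3 h4
  refine ⟨u, ⟨h1, h4⟩, ?_, ?_⟩
  · have h5 := h s ⟨hs.1, by linarith [hs.2, ht'.2]⟩ u ⟨h1, by linarith [ht.2]⟩ (by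
      rw [abs_of_nonneg (by linarith)]
      linarith)
    linarith
  · have h5 := h (s + (b - a) - t') ⟨by linarith [hs.1, ht'.2], by linarith [hs.2]⟩
      (u + (b - a) - t) ⟨by linarith [ht.2], by linarith⟩ (by
        rw [abs_lt]
        constructor <;> linarith)
    linarith

theorem shk_cont (hab : a < b) (hc : ContinuousOn ρ (Icc a b))
    (hconc : ConcaveOn ℝ (Icc a b) ρ) : ContinuousOn (shk ρ a b) (Icc 0 (b - a)) := by
  have hu := isCompact_Icc.uniformContinuousOn_of_continuous hc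
  rw [Metric.uniformContinuousOn_iff] at hu
  rw [Metric.continuousOn_iff]
  intro t ht ε hε
  obtain ⟨δ, hδ, h⟩ := hu (ε / 2) (by positivity)
  refine ⟨δ, hδ, ?_⟩
  intro t' ht' hd
  have h' : ∀ x ∈ Icc a b, ∀ y ∈ Icc a b, |x - y| < δ → ρ x - ε / 2 ≤ ρ y := by
    intro x hx y hy hxy
    have := h x hx y hy (by rwa [Real.dist_eq])
    rw [Real.dist_eq, abs_lt] at this
    linarith [this.2]
  rw [Real.dist_eq, abs_lt] at hd ⊢
  rcases le_total t t' with htt | htt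
  · have h1 := ShakeA_mod hab hc h' ht ht' htt (by linarith [hd.2])
    have h2 := shk_mono hab hc hconc ht ht' htt
    constructor <;> linarith
  · have h1 := ShakeA_mod hab hc h' ht' ht htt (by linarith [hd.1])
    have h2 := shk_mono hab hc hconc ht' ht htt
    constructor <;> linarith

theorem shk_nonneg (hab : a < b) (hc : ContinuousOn ρ (Icc a b))
    (hnn : ∀ t ∈ Icc a b, 0 ≤ ρ t) : ∀ t ∈ Icc (0 : ℝ) (b - a), 0 ≤ shk ρ a b t := by
  intro t ht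
  rw [shk_level hab hc ht]
  refine ⟨a, ⟨le_rfl, by linarith [ht.1]⟩, hnn a ⟨le_rfl, hab.le⟩, hnn _ ⟨?_, ?_⟩⟩
  · linarith [ht.2]
  · linarith [ht.1]

theorem ShakeA_pos (hconc : ConcaveOn ℝ (Icc a b) ρ) (hnn : ∀ t ∈ Icc a b, 0 ≤ ρ t)
    (hp : ∃ t ∈ Icc a b, 0 < ρ t) {x : ℝ} (hx : x ∈ Ioo a b) : 0 < ρ x := by
  obtain ⟨z, hz, hz0⟩ := hp
  have ha : a ∈ Icc a b := ⟨le_rfl, by linarith [hx.1, hx.2]⟩
  have hb : b ∈ Icc a b := ⟨by linarith [hx.1, hx.2], le_rfl⟩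
  rcases lt_trichotomy x z with h | h | h
  · have hza : 0 < z - a := by linarith [hx.1]
    have h1 := hconc.2 ha hz (div_nonneg (by linarith : 0 ≤ z - x) hza.le)
      (div_nonneg (by linarith [hx.1] : 0 ≤ x - a) hza.le) (by
        field_simp
        ring)
    simp only [smul_eq_mul] at h1
    have e : (z - x) / (z - a) * a + (x - a) / (z - a) * z = x := by
      field_simp
      ring
    rw [e] at h1
    have h2 : 0 < (x - a) / (z - a) * ρ z := mul_pos (div_pos (by linarith [hx.1]) hza) hz0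
    have h3 : 0 ≤ (z - x) / (z - a) * ρ a := mul_nonneg (div_nonneg (by linarith) hza.le) (hnn a ha)
    linarith
  · rw [h]
    exact hz0
  · have hza : 0 < b - z := by linarith [hx.2]
    have h1 := hconc.2 hz hb (div_nonneg (by linarith [hx.2] : 0 ≤ b - x) hza.le)
      (div_nonneg (by linarith : 0 ≤ x - z) hza.le) (by
        field_simp
        ring)
    simp only [smul_eq_mul] at h1
    have e : (b - x) / (b - z) * z + (x - z) / (b - z) * b = x := by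
      field_simp
      ring
    rw [e] at h1
    have h2 : 0 < (b - x) / (b - z) * ρ z := mul_pos (div_pos (by linarith [hx.2]) hza) hz0
    have h3 : 0 ≤ (x - z) / (b - z) * ρ b := mul_nonneg (div_nonneg (by linarith) hza.le) (hnn b hb)
    linarith

theorem shk_pos (hab : a < b) (hc : ContinuousOn ρ (Icc a b))
    (hconc : ConcaveOn ℝ (Icc a b) ρ) (hnn : ∀ t ∈ Icc a b, 0 ≤ ρ t)
    (hp : ∃ t ∈ Icc a b, 0 < ρ t) : ∀ t ∈ Ioc (0 : ℝ) (b - a), 0 < shk ρ a b t := by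
  intro t ht
  have h1 : 0 < ρ (a + t / 2) :=
    ShakeA_pos hconc hnn hp ⟨by linarith [ht.1], by linarith [ht.1, ht.2]⟩
  have h2 : 0 < ρ (a + t / 2 + (b - a) - t) :=
    ShakeA_pos hconc hnn hp ⟨by linarith [ht.1, ht.2], by linarith [ht.1]⟩
  have h3 := (shk_level hab hc (t := t) ⟨ht.1.le, ht.2⟩
    (min (ρ (a + t / 2)) (ρ (a + t / 2 + (b - a) - t)))).2
    ⟨a + t / 2, ⟨by linarith [ht.1], by linarith [ht.1]⟩, min_le_left _ _, min_le_right _ _⟩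
  exact (lt_min h1 h2).trans_le h3

theorem level_interval (hab : a < b) (hc : ContinuousOn ρ (Icc a b))
    (hconc : ConcaveOn ℝ (Icc a b) ρ) {r : ℝ} (hr : ∃ t ∈ Icc a b, r ≤ ρ t) :
    ∃ α β : ℝ, a ≤ α ∧ α ≤ β ∧ β ≤ b ∧ {t | t ∈ Icc a b ∧ r ≤ ρ t} = Icc α β ∧
      {t | t ∈ Icc (0 : ℝ) (b - a) ∧ r ≤ shk ρ a b t} = Icc ((b - a) - (β - α)) (b - a) := by
  have hcv : Convex ℝ {t | t ∈ Icc a b ∧ r ≤ ρ t} := hconc.convex_ge r
  have hcl : IsClosed {t | t ∈ Icc a b ∧ r ≤ ρ t} :=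
    hc.preimage_isClosed_of_isClosed isClosed_Icc isClosed_Ici
  have hcp : IsCompact {t | t ∈ Icc a b ∧ r ≤ ρ t} :=
    isCompact_Icc.of_isClosed_subset hcl fun t ht => ht.1
  have hne : {t | t ∈ Icc a b ∧ r ≤ ρ t}.Nonempty := by
    obtain ⟨t, h1, h2⟩ := hr
    exact ⟨t, h1, h2⟩
  have heq := eq_Icc_of_connected_compact ⟨hne, hcv.isPreconnected⟩ hcp
  obtain ⟨α, hα⟩ : ∃ α, α = sInf {t | t ∈ Icc a b ∧ r ≤ ρ t} := ⟨_, rfl⟩
  obtain ⟨β, hβ⟩ : ∃ β, β = sSup {t | t ∈ Icc a b ∧ r ≤ ρ t} := ⟨_, rfl⟩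
  rw [← hα, ← hβ] at heq
  have hle : α ≤ β := by
    rw [heq, nonempty_Icc] at hne
    exact hne
  have mα : α ∈ {t | t ∈ Icc a b ∧ r ≤ ρ t} := by rw [heq]; exact ⟨le_rfl, hle⟩
  have mβ : β ∈ {t | t ∈ Icc a b ∧ r ≤ ρ t} := by rw [heq]; exact ⟨hle, le_rfl⟩
  have key : ∀ x ∈ Icc a b, r ≤ ρ x → α ≤ x ∧ x ≤ β := by
    intro x hx hrx
    have : x ∈ {t | t ∈ Icc a b ∧ r ≤ ρ t} := ⟨hx, hrx⟩
    rw [heq] at this
    exact this
  have key2 : ∀ x, α ≤ x → x ≤ β → r ≤ ρ x := by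
    intro x h1 h2
    have : x ∈ {t | t ∈ Icc a b ∧ r ≤ ρ t} := by
      rw [heq]
      exact ⟨h1, h2⟩
    exact this.2
  refine ⟨α, β, mα.1.1, hle, mβ.1.2, heq, ?_⟩
  ext t
  constructor
  · rintro ⟨ht, hrt⟩
    obtain ⟨s, hs, p, q⟩ := (shk_level hab hc ht r).1 hrt
    have h1 := key s ⟨hs.1, by linarith [hs.2, ht.2]⟩ p
    have h2 := key (s + (b - a) - t) ⟨by linarith [hs.1, ht.2], by linarith [hs.2]⟩ q
    exact ⟨by linarith [h1.1, h2.2], ht.2⟩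
  · rintro ⟨h1, h2⟩
    have ht : t ∈ Icc (0 : ℝ) (b - a) := ⟨by linarith [mα.1.1, mβ.1.2], h2⟩
    refine ⟨ht, (shk_level hab hc ht r).2 ⟨α, ⟨mα.1.1, ?_⟩, mα.2, ?_⟩⟩
    · linarith [mβ.1.2]
    · exact key2 _ (by linarith) (by linarith)

end Vale.Agent.P254U
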